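import Mathlib

/-!
P043, dimension three: from tilings up to null sets to exact tilings, for half-open tiles.
-/

namespace Vale.Agent.P043.R3

open MeasureTheory Filter Topology Set

variable {ι : Type*}

/-- membership does not change under small nonnegative translations, and the set is measurable -/
def Nice (p : (ι → ℝ) → Prop) : Prop :=
  (∀ y, ∀ᶠ δ in 𝓝[Ici 0] (0 : ι → ℝ), (p (y + δ) ↔ p y)) ∧ MeasurableSet {x | p x}

lemma nice_le (i : ι) (c : ℝ) : Nice (fun x : ι → ℝ => c ≤ x i) := by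
  refine ⟨fun y => ?_, measurableSet_le measurable_const (measurable_pi_apply i)⟩
  rw [eventually_nhdsWithin_iff]
  by_cases h : c ≤ y i
  · filter_upwards with δ hδ
    have := hδ i
    simp only [Pi.zero_apply] at this
    exact ⟨fun _ => h, fun _ => by simp only [Pi.add_apply]; linarith⟩
  · have : Tendsto (fun δ : ι → ℝ => δ i) (𝓝 0) (𝓝 0) :=
      (continuous_apply i).tendsto' 0 0 rfl
    filter_upwards [this (Iio_mem_nhds (show (0 : ℝ) < c - y i by linarith))] with δ hδ _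
    simp only [mem_preimage, mem_Iio] at hδ
    simp only [Pi.add_apply]
    constructor <;> intro h' <;> linarith

lemma Nice.not {p : (ι → ℝ) → Prop} (h : Nice p) : Nice fun x => ¬ p x :=
  ⟨fun y => (h.1 y).mono fun _ e => not_congr e, h.2.compl⟩

lemma Nice.and {p q : (ι → ℝ) → Prop} (h : Nice p) (h' : Nice q) : Nice fun x => p x ∧ q x :=
  ⟨fun y => ((h.1 y).and (h'.1 y)).mono fun _ e => and_congr e.1 e.2, h.2.inter h'.2⟩

lemma Nice.or {p q : (ι → ℝ) → Prop} (h : Nice p) (h' : Nice q) : Nice fun x => p x ∨ q x :=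
  ⟨fun y => ((h.1 y).and (h'.1 y)).mono fun _ e => or_congr e.1 e.2, h.2.union h'.2⟩

lemma Nice.exists {κ : Type*} [Finite κ] {p : κ → (ι → ℝ) → Prop} (h : ∀ j, Nice (p j)) :
    Nice fun x => ∃ j, p j x := by
  refine ⟨fun y => (eventually_all.2 fun j => (h j).1 y).mono fun _ e => exists_congr e, ?_⟩
  convert MeasurableSet.iUnion fun j => (h j).2 using 1
  ext x
  exact ⟨fun ⟨j, hj⟩ => mem_iUnion.2 ⟨j, hj⟩, fun h => mem_iUnion.1 h⟩

lemma Nice.congr {p q : (ι → ℝ) → Prop} (h : Nice p) (e : ∀ x, q x ↔ p x) : Nice q := by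
  rwa [show q = p from funext fun x => propext (e x)]

lemma nice_lt (i : ι) (c : ℝ) : Nice (fun x : ι → ℝ => x i < c) :=
  (nice_le i c).not.congr fun _ => not_le.symm

variable [Fintype ι] {A : Set (ι → ℝ)} {T : (ι → ℝ) → Set (ι → ℝ)}

/-- finitely many translates near a point -/
lemma near_finite {V : ENNReal} (hV0 : V ≠ 0) (hmeas : ∀ a ∈ A, MeasurableSet (T a))
    (hvol : ∀ a ∈ A, V ≤ volume (T a)) {R : ℝ} (hbdd : ∀ a, ∀ y ∈ T a, ‖y - a‖ ≤ R)
    (hdis : A.Pairwise fun a b => volume (T a ∩ T b) = 0) (x : ι → ℝ) (r : ℝ) :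
    {a ∈ A | ‖a - x‖ ≤ r}.Finite := by
  classical
  by_contra hinf
  have hfin : volume (Metric.closedBall x (r + R)) ≠ ⊤ := measure_closedBall_lt_top.ne
  have bound : ∀ n : ℕ, (n : ENNReal) * V ≤ volume (Metric.closedBall x (r + R)) := by
    intro n
    obtain ⟨F, hF, hn⟩ := Set.Infinite.exists_subset_card_eq hinf n
    have hFA : ∀ a ∈ F, a ∈ A := fun a ha => (hF ha).1
    calc (n : ENNReal) * V = ∑ _a ∈ F, V := by rw [Finset.sum_const, hn, nsmul_eq_mul]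
      _ ≤ ∑ a ∈ F, volume (T a) := Finset.sum_le_sum fun a ha => hvol a (hFA a ha)
      _ = volume (⋃ a ∈ F, T a) := (measure_biUnion_finset₀
          (fun a ha b hb hne => hdis (hFA a ha) (hFA b hb) hne)
          (fun a ha => (hmeas a (hFA a ha)).nullMeasurableSet)).symm
      _ ≤ _ := measure_mono fun y hy => by
          obtain ⟨a, ha, hy⟩ := mem_iUnion₂.1 hy
          rw [Metric.mem_closedBall, dist_eq_norm]
          calc ‖y - x‖ = ‖(y - a) + (a - x)‖ := by rw [sub_add_sub_cancel]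
            _ ≤ ‖y - a‖ + ‖a - x‖ := norm_add_le _ _
            _ ≤ r + R := by linarith [hbdd a y hy, (hF ha).2]
  obtain ⟨n, hn⟩ := ENNReal.exists_nat_mul_gt hV0 hfin
  exact absurd (bound n) (not_le.2 hn)

lemma countable_of_near (h : ∀ r : ℝ, {a ∈ A | ‖a - 0‖ ≤ r}.Finite) : A.Countable := by
  refine (countable_iUnion fun n : ℕ => (h (n : ℝ)).countable).mono fun a ha => ?_
  obtain ⟨n, hn⟩ := exists_nat_ge ‖a - 0‖
  exact mem_iUnion.2 ⟨n, ha, hn⟩

/-- A tiling up to null sets by half-open tiles covers every point exactly once. -/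
theorem exact_of_ae {V : ENNReal} (hV0 : V ≠ 0) (hnice : ∀ a, Nice (fun y => y ∈ T a))
    (hvol : ∀ a ∈ A, V ≤ volume (T a)) {R : ℝ} (hbdd : ∀ a, ∀ y ∈ T a, ‖y - a‖ ≤ R)
    (hcov : volume (⋃ a ∈ A, T a)ᶜ = 0)
    (hdis : A.Pairwise fun a b => volume (T a ∩ T b) = 0) (x : ι → ℝ) :
    ∃! a, a ∈ A ∧ x ∈ T a := by
  have fin := near_finite hV0 (fun a _ => (hnice a).2) hvol hbdd hdis x (R + 1)
  obtain ⟨ε, hε, he⟩ : ∃ ε > 0, ∀ δ : ι → ℝ, (∀ i, 0 ≤ δ i ∧ δ i < ε) →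
      ‖δ‖ ≤ 1 ∧ ∀ a ∈ {a ∈ A | ‖a - x‖ ≤ R + 1}, (x + δ ∈ T a ↔ x ∈ T a) := by
    have h := ((eventually_nhdsWithin_of_eventually_nhds (s := Ici 0)
      (eventually_le_nhds (show (0 : ℝ) < 1 by norm_num) |> fun h1 =>
        (continuous_norm.tendsto' (0 : ι → ℝ) 0 norm_zero).eventually h1)).and
      ((Filter.eventually_all_finite fin).2 fun a _ => (hnice a).1 x))
    obtain ⟨ε, hε, he⟩ := Metric.mem_nhdsWithin_iff.1 h
    refine ⟨ε, hε, fun δ hδ => he ⟨?_, fun i => (hδ i).1⟩⟩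
    rw [Metric.mem_ball, dist_zero_right, pi_norm_lt_iff hε]
    intro i
    rw [Real.norm_eq_abs, abs_of_nonneg (hδ i).1]
    exact (hδ i).2
  obtain ⟨S, hS⟩ : ∃ S : Set (ι → ℝ), S = Set.pi univ fun i => Ico (x i) (x i + ε) := ⟨_, rfl⟩
  have hS0 : volume S ≠ 0 := by
    rw [hS, Real.volume_pi_Ico]
    exact Finset.prod_ne_zero_iff.2 fun i _ => by simpa using hε
  have hmem : ∀ y ∈ S, ‖y - x‖ ≤ 1 ∧ ∀ a ∈ {a ∈ A | ‖a - x‖ ≤ R + 1},
      (y ∈ T a ↔ x ∈ T a) := by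
    intro y hy
    have h := he (y - x) fun i => by
      have := (hS ▸ hy) i (mem_univ i)
      simp only [mem_Ico] at this
      simp only [Pi.sub_apply]; constructor <;> linarith [this.1, this.2]
    rw [add_sub_cancel] at h
    exact h
  have near : ∀ a, ∀ y ∈ T a, ‖y - x‖ ≤ 1 → ‖a - x‖ ≤ R + 1 := by
    intro a y hy h1
    calc ‖a - x‖ = ‖(a - y) + (y - x)‖ := by rw [sub_add_sub_cancel]
      _ ≤ ‖a - y‖ + ‖y - x‖ := norm_add_le _ _
      _ ≤ R + 1 := by rw [norm_sub_rev a y]; linarith [hbdd a y hy]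
  obtain ⟨a, ha, hx⟩ : ∃ a ∈ A, x ∈ T a := by
    by_contra hc
    push Not at hc
    have hsub : S ⊆ (⋃ a ∈ A, T a)ᶜ := by
      intro y hy hy'
      obtain ⟨a, ha, hya⟩ := mem_iUnion₂.1 hy'
      obtain ⟨h1, h2⟩ := hmem y hy
      exact hc a ha ((h2 a ⟨ha, near a y hya h1⟩).1 hya)
    exact hS0 (measure_mono_null hsub hcov)
  refine ⟨a, ⟨ha, hx⟩, fun b ⟨hb, hxb⟩ => ?_⟩
  by_contra hne
  refine hS0 (measure_mono_null (fun y hy => ?_) (hdis hb ha hne))
  obtain ⟨-, h2⟩ := hmem y hy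
  have h0 : ‖x - x‖ ≤ (1 : ℝ) := by simp
  exact ⟨(h2 b ⟨hb, near b x hxb h0⟩).2 hxb, (h2 a ⟨ha, near a x hx h0⟩).2 hx⟩

end Vale.Agent.P043.R3
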