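import Mathlib

/-!
P043, dimension three: arcs on the circle `ℝ / ℤ`, and multiples of an irrational number.
-/

namespace Vale.Agent.P043.R3

/-- `z` lies, modulo one, on the arc of length `l` starting at `s`. -/
def Arc (s l z : ℝ) : Prop := Int.fract (z - s) < l

/-- Equality modulo one. -/
def Cg (x y : ℝ) : Prop := ∃ m : ℤ, x = y + m

lemma Cg.refl (x : ℝ) : Cg x x := ⟨0, by simp⟩

lemma Cg.symm {x y : ℝ} (h : Cg x y) : Cg y x := by
  obtain ⟨m, rfl⟩ := h
  exact ⟨-m, by push_cast; ring⟩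

lemma Cg.trans {x y z : ℝ} (h : Cg x y) (h' : Cg y z) : Cg x z := by
  obtain ⟨m, rfl⟩ := h
  obtain ⟨n, rfl⟩ := h'
  exact ⟨n + m, by push_cast; ring⟩

lemma Cg.add_right {x y : ℝ} (h : Cg x y) (c : ℝ) : Cg (x + c) (y + c) := by
  obtain ⟨m, rfl⟩ := h
  exact ⟨m, by ring⟩

lemma cg_iff_fract {x y : ℝ} : Cg x y ↔ Int.fract (x - y) = 0 := by
  rw [Int.fract_eq_zero_iff]
  constructor
  · rintro ⟨m, rfl⟩; exact ⟨m, by ring⟩
  · rintro ⟨m, hm⟩; exact ⟨m, by linarith⟩

lemma fract_congr {x y : ℝ} (h : Cg x y) : Int.fract x = Int.fract y := by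
  obtain ⟨m, rfl⟩ := h
  simp

lemma fract_of_mem {x : ℝ} (h0 : 0 ≤ x) (h1 : x < 1) : Int.fract x = x :=
  Int.fract_eq_self.2 ⟨h0, h1⟩

lemma arc_congr {s s' l z : ℝ} (h : Cg s s') : Arc s l z ↔ Arc s' l z := by
  obtain ⟨m, rfl⟩ := h
  unfold Arc
  rw [show z - (s' + m) = z - s' - (m : ℝ) by ring, Int.fract_sub_intCast]

lemma arc_split {a x y z : ℝ} (hx : 0 ≤ x) (hy : 0 ≤ y) (hxy : x + y ≤ 1) :
    (Arc a (x + y) z ↔ Arc a x z ∨ Arc (a + x) y z) ∧ ¬ (Arc a x z ∧ Arc (a + x) y z) := by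
  unfold Arc
  have h0 := Int.fract_nonneg (z - a)
  have h1 := Int.fract_lt_one (z - a)
  by_cases h : Int.fract (z - a) < x
  · have e : Int.fract (z - (a + x)) = Int.fract (z - a) - x + 1 := by
      rw [show z - (a + x) = (Int.fract (z - a) - x + 1) + ((⌊z - a⌋ - 1 : ℤ) : ℝ) by
        rw [← Int.self_sub_floor]; push_cast; ring, Int.fract_add_intCast]
      exact fract_of_mem (by linarith) (by linarith)
    refine ⟨⟨fun _ => Or.inl h, fun _ => by linarith⟩, fun hh => ?_⟩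
    rw [e] at hh
    linarith [hh.2]
  · have e : Int.fract (z - (a + x)) = Int.fract (z - a) - x := by
      rw [show z - (a + x) = (Int.fract (z - a) - x) + ((⌊z - a⌋ : ℤ) : ℝ) by
        rw [← Int.self_sub_floor]; ring, Int.fract_add_intCast]
      exact fract_of_mem (by linarith) (by linarith)
    refine ⟨⟨fun h' => Or.inr (by rw [e]; linarith), ?_⟩, fun hh => h hh.1⟩
    rintro (h' | h')
    · exact absurd h' h
    · rw [e] at h'; linarith

lemma arc_start {s l : ℝ} (hl : 0 < l) : Arc s l s := by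
  unfold Arc; simpa using hl

/-- In an exact covering of the circle by arcs, an arc containing the end of another one starts
there. -/
lemma arc_end {s s' l l' : ℝ} (hl : 0 < l) (hl1 : l < 1)
    (hd : ∀ z, ¬ (Arc s l z ∧ Arc s' l' z)) (h : Arc s' l' (s + l)) : Cg s' (s + l) := by
  by_contra hne
  have ht0 : 0 < Int.fract (s + l - s') := by
    rcases (Int.fract_nonneg (s + l - s')).lt_or_eq with h0 | h0
    · exact h0
    · exact absurd (cg_iff_fract.2 h0.symm).symm hne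
  set t := Int.fract (s + l - s') with ht
  set ε := min t l / 2 with hε
  have he : 0 < ε := by rw [hε]; positivity
  have het : ε < t := by rw [hε]; linarith [min_le_left t l]
  have hel : ε < l := by rw [hε]; linarith [min_le_right t l]
  have h1 : Arc s l (s + l - ε) := by
    unfold Arc
    rw [show s + l - ε - s = l - ε by ring, fract_of_mem (by linarith) (by linarith)]
    linarith
  have h2 : Arc s' l' (s + l - ε) := by
    unfold Arc at h ⊢
    rw [show s + l - ε - s' = (t - ε) + ((⌊s + l - s'⌋ : ℤ) : ℝ) by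
      rw [ht, ← Int.self_sub_floor]; ring, Int.fract_add_intCast,
      fract_of_mem (by linarith) (by linarith [Int.fract_lt_one (s + l - s')])]
    linarith
  exact hd _ ⟨h1, h2⟩

lemma arc_not_end {s l : ℝ} (hl : 0 < l) (hl1 : l < 1) : ¬ Arc s l (s + l) := by
  unfold Arc
  rw [show s + l - s = l by ring, fract_of_mem hl.le hl1]
  exact lt_irrefl l

/-- Three arcs tiling the circle follow each other in one of the two cyclic orders. -/
lemma three_arcs {s₁ s₂ s₃ l₁ l₂ l₃ : ℝ} (h₁ : 0 < l₁) (h₂ : 0 < l₂) (h₃ : 0 < l₃)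
    (hsum : l₁ + l₂ + l₃ = 1)
    (hc : ∀ z, Arc s₁ l₁ z ∨ Arc s₂ l₂ z ∨ Arc s₃ l₃ z)
    (h12 : ∀ z, ¬ (Arc s₁ l₁ z ∧ Arc s₂ l₂ z)) (h13 : ∀ z, ¬ (Arc s₁ l₁ z ∧ Arc s₃ l₃ z))
    (h23 : ∀ z, ¬ (Arc s₂ l₂ z ∧ Arc s₃ l₃ z)) :
    (Cg s₂ (s₁ + l₁) ∧ Cg s₃ (s₂ + l₂)) ∨ (Cg s₃ (s₁ + l₁) ∧ Cg s₂ (s₃ + l₃)) := by
  have absurd' : ∀ {x y : ℝ}, 0 < x → x < 1 → Cg y (y + x) → False := by
    rintro x y hx0 hx1 ⟨m, hm⟩
    have : (((-m : ℤ)) : ℝ) = x := by push_cast; linarith
    have a1 : (0 : ℤ) < -m := Int.cast_lt (R := ℝ) |>.1 (by rw [this, Int.cast_zero]; exact hx0)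
    have a2 : -m < (1 : ℤ) := Int.cast_lt (R := ℝ) |>.1 (by rw [this, Int.cast_one]; exact hx1)
    omega
  rcases hc (s₁ + l₁) with h | h | h
  · exact absurd h (arc_not_end h₁ (by linarith))
  · have e := arc_end h₁ (by linarith) h12 h
    left
    refine ⟨e, ?_⟩
    rcases hc (s₂ + l₂) with g | g | g
    · have e' := arc_end h₂ (by linarith) (fun z hz => h12 z ⟨hz.2, hz.1⟩) g
      have e2 : Cg s₁ (s₁ + (l₁ + l₂)) := by
        rw [← add_assoc]; exact e'.trans (e.add_right l₂)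
      exact (absurd' (by linarith) (by linarith) e2).elim
    · exact absurd g (arc_not_end h₂ (by linarith))
    · exact arc_end h₂ (by linarith) h23 g
  · have e := arc_end h₁ (by linarith) h13 h
    right
    refine ⟨e, ?_⟩
    rcases hc (s₃ + l₃) with g | g | g
    · have e' := arc_end h₃ (by linarith) (fun z hz => h13 z ⟨hz.2, hz.1⟩) g
      have e2 : Cg s₁ (s₁ + (l₁ + l₃)) := by
        rw [← add_assoc]; exact e'.trans (e.add_right l₃)
      exact (absurd' (by linarith) (by linarith) e2).elim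
    · exact arc_end h₃ (by linarith) (fun z hz => h23 z ⟨hz.2, hz.1⟩) g
    · exact absurd g (arc_not_end h₃ (by linarith))

/-- The slope. -/
noncomputable def dlt : ℝ := Real.sqrt 2 / 32

lemma dlt_pos : 0 < dlt := by unfold dlt; positivity

lemma dlt_small : 16 * dlt < 1 := by
  unfold dlt
  nlinarith [Real.sq_sqrt (show (0 : ℝ) ≤ 2 by norm_num), Real.sqrt_nonneg 2]

/-- Multiples of the slope agree modulo one only when they are equal. -/
lemma cg_mul {x : ℝ} {a b : ℤ} (h : Cg (x + a * dlt) (x + b * dlt)) : a = b := by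
  obtain ⟨m, hm⟩ := h
  by_contra hne
  have hk : ((a - b : ℤ) : ℝ) ≠ 0 := by exact_mod_cast sub_ne_zero.2 hne
  have hirr : Irrational (Real.sqrt 2) := irrational_sqrt_two
  apply hirr
  refine ⟨(32 * m : ℚ) / ((a - b : ℤ) : ℚ), ?_⟩
  push_cast
  rw [div_eq_iff (by push_cast at hk; exact hk)]
  unfold dlt at hm
  linarith

end Vale.Agent.P043.R3
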