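import Mathlib

/-!
P043, dimension three: systems of translational equations on `ℤ × ℤ × ℝ` with arcs as pieces.
-/

namespace Vale.Agent.P043.R3

/-- A piece: a shift in `ℤ × ℤ` and an interval. -/
structure Pc where
  k : ℤ
  u : ℤ
  lo : ℝ
  hi : ℝ

/-- Points of the base. -/
abbrev P3 : Type := ℤ × ℤ × ℝ

/-- The translate of the piece `p` by `a` contains `x`. -/
def Hits (x : P3) (p : Pc) (a : P3) : Prop :=
  a.1 + p.k = x.1 ∧ a.2.1 + p.u = x.2.1 ∧ a.2.2 + p.lo ≤ x.2.2 ∧ x.2.2 < a.2.2 + p.hi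

/-- `A` solves the equation with pieces `P`. -/
def Sol (P : List Pc) (A : Set P3) : Prop :=
  ∀ x, ∃! q : Pc × P3, q.1 ∈ P ∧ q.2 ∈ A ∧ Hits x q.1 q.2

/-- The requirements of the lifting on a system of equations: pieces of one equation at one shift
are disjoint arcs inside `[0, 2)`, those of the first equation meet every height in `[0, 2)`, and
those of the equation `l₁` all start at height `1`. -/
def Fits {L : ℕ} [NeZero L] (E : Fin L → List Pc) (l₁ : Fin L) : Prop :=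
  (∀ l, ∀ p ∈ E l, 0 ≤ p.lo ∧ p.lo < p.hi ∧ p.hi ≤ 2) ∧
  (∀ l, ∀ p ∈ E l, ∀ q ∈ E l, p ≠ q → p.k = q.k → p.u = q.u → p.hi ≤ q.lo ∨ q.hi ≤ p.lo) ∧
  (∀ z : ℝ, 0 ≤ z → z < 2 → ∃ p ∈ E 0, p.lo ≤ z ∧ z < p.hi) ∧
  ∀ p ∈ E l₁, p.lo = 1

end Vale.Agent.P043.R3
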