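import Vale.Agent.P043.R3.Defs
import Vale.Agent.P043.R3.Arcs

/-!
P043, dimension three: the seven equations, and what they mean on occupied classes.
-/

namespace Vale.Agent.P043.R3

/-- A piece with end points in `ℤ + ℤ · dlt`, by its coefficients. -/
structure Dat where
  k : ℤ
  u : ℤ
  a : ℤ
  b : ℤ
  c : ℤ
  e : ℤ
deriving DecidableEq

/-- The piece of a datum. -/
noncomputable def Dat.pc (d : Dat) : Pc :=
  ⟨d.k, d.u, d.a + d.b * dlt, d.c + d.e * dlt⟩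

/-- The pieces of the slope equation. -/
def slopeDat : List Dat :=
  [⟨0, 1, 0, 0, 0, 4⟩, ⟨-2, 3, 0, 0, 0, 2⟩, ⟨2, 3, 0, 2, 0, 4⟩, ⟨0, 3, 0, 2, 0, 6⟩,
    ⟨-2, 1, 0, 2, 0, 4⟩, ⟨2, 1, 0, 4, 0, 6⟩, ⟨-3, 2, 0, 4, 1, -1⟩, ⟨-7, 2, 1, -1, 1, 0⟩,
    ⟨-5, 0, 0, 4, 1, -3⟩, ⟨-9, 0, 1, -3, 1, 0⟩, ⟨1, 0, 0, 6, 1, 1⟩, ⟨-3, 0, 1, 1, 1, 2⟩,
    ⟨-1, 2, 0, 6, 1, -1⟩, ⟨-5, 2, 1, -1, 1, 2⟩]

/-- The seven equations. -/
noncomputable def sys : Fin 7 → List Pc :=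
  ![[⟨0, 0, 0, 1⟩, ⟨0, 2, 1, 2⟩, ⟨2, 0, 0, 1⟩, ⟨2, 2, 0, 1⟩],
    [⟨0, 0, 0, 1⟩, ⟨4, 2, 0, 1⟩, ⟨2, 0, 0, 1⟩, ⟨2, 2, 0, 1⟩],
    [⟨0, 2, 0, 1 / 2⟩, ⟨0, 2, 1 / 2, 1⟩, ⟨0, 0, 0, 1⟩, ⟨2, 1, 0, 1⟩, ⟨2, 3, 0, 1⟩],
    [⟨0, 6, 0, 1 / 2⟩, ⟨0, 2, 1 / 2, 1⟩, ⟨0, 0, 0, 1⟩, ⟨2, 1, 0, 1⟩, ⟨2, 3, 0, 1⟩],
    [⟨0, 2, 1, 3 / 2⟩, ⟨0, 2, 1 / 2, 1⟩, ⟨0, 0, 0, 1⟩, ⟨2, 1, 0, 1⟩, ⟨2, 3, 0, 1⟩],
    [⟨0, 0, 1, 2⟩, ⟨1, 2, 1, 2⟩, ⟨2, 0, 1, 2⟩, ⟨3, 2, 1, 2⟩],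
    slopeDat.map Dat.pc]

/-- In an equation with two adjacent half pieces, points of the solution are a unit apart. -/
lemma sep {k u : ℤ} {R : List Pc} {B : Set P3}
    (h : Sol (⟨k, u, 0, 1 / 2⟩ :: ⟨k, u, 1 / 2, 1⟩ :: R) B) {n v : ℤ} {g g' : ℝ}
    (ha : (n, v, g) ∈ B) (hb : (n, v, g') ∈ B) (hlt : |g - g'| < 1) : g = g' := by
  obtain ⟨h1, h2⟩ := abs_sub_lt_iff.1 hlt
  have hit : ∀ c, (n, v, c) ∈ B → c ≤ max g g' → max g g' < c + 1 →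
      ∃ q : Pc × P3, q.2 = (n, v, c) ∧ q.1 ∈ (⟨k, u, 0, 1 / 2⟩ :: ⟨k, u, 1 / 2, 1⟩ :: R) ∧
        q.2 ∈ B ∧ Hits (n + k, v + u, max g g') q.1 q.2 := by
    intro c hc h1 h2
    by_cases hh : max g g' < c + 1 / 2
    · exact ⟨(⟨k, u, 0, 1 / 2⟩, (n, v, c)), rfl, by simp, hc, rfl, rfl, by simpa using h1, hh⟩
    · exact ⟨(⟨k, u, 1 / 2, 1⟩, (n, v, c)), rfl, by simp, hc, rfl, rfl,
        not_lt.1 hh, h2⟩
  obtain ⟨q, hq, hq1⟩ := hit g ha (le_max_left _ _) (max_lt (by linarith) (by linarith))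
  obtain ⟨q', hq', hq1'⟩ := hit g' hb (le_max_right _ _) (max_lt (by linarith) (by linarith))
  have e := (h (n + k, v + u, max g g')).unique hq1 hq1'
  rw [← e, hq] at hq'
  simpa using hq'

/-- Two equations that differ in one half piece force a period. -/
lemma invariant {k u : ℤ} {t : P3} (ht : t.1 = 0) {R : List Pc} {B : Set P3}
    (hne : ∀ p ∈ (⟨k, u, 1 / 2, 1⟩ :: R : List Pc),
      p ≠ ⟨k, u + t.2.1, t.2.2, t.2.2 + 1 / 2⟩ ∧ p ≠ ⟨k, u, 0, 1 / 2⟩)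
    (h : Sol (⟨k, u, 0, 1 / 2⟩ :: ⟨k, u, 1 / 2, 1⟩ :: R) B)
    (h' : Sol (⟨k, u + t.2.1, t.2.2, t.2.2 + 1 / 2⟩ :: ⟨k, u, 1 / 2, 1⟩ :: R) B) :
    ∀ a, a + t ∈ B ↔ a ∈ B := by
  obtain ⟨t0, tv, tz⟩ := t
  obtain rfl : t0 = 0 := ht
  have key : ∀ n v g, (n, v, g) ∈ B → (n, v + tv, g + tz) ∈ B := by
    intro n v g ha
    obtain ⟨⟨p, a'⟩, ⟨hp, ha', hh⟩, -⟩ := h (n + k, v + tv + u, g + tz)
    have hmem : (n, v, g) ∈ B ∧ Hits (n + k, v + tv + u, g + tz)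
        ⟨k, u + tv, tz, tz + 1 / 2⟩ (n, v, g) := by
      refine ⟨ha, rfl, by show v + (u + tv) = v + tv + u; ring, le_rfl, ?_⟩
      show g + tz < g + (tz + 1 / 2); linarith
    rcases List.mem_cons.1 hp with rfl | hp
    · obtain ⟨n', v', g'⟩ := a'
      obtain ⟨e1, e2, e3, e4⟩ := hh
      obtain rfl : n' = n := by simpa using e1
      obtain rfl : v' = v + tv := by simpa using e2
      have e3' : g' ≤ g + tz := by simpa using e3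
      obtain ⟨⟨p, a''⟩, ⟨hp', ha'', hh'⟩, -⟩ := h' (n' + k, v + tv + u, g')
      rcases List.mem_cons.1 hp' with rfl | hp'
      · obtain ⟨n'', v'', g''⟩ := a''
        obtain ⟨f1, f2, f3, f4⟩ := hh'
        obtain rfl : n'' = n' := by simpa using f1
        have hv : v'' = v := by have : v'' + (u + tv) = v + tv + u := f2; omega
        subst hv
        have f3' : g'' + tz ≤ g' := f3
        have f4' : g' < g'' + (tz + 1 / 2) := f4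
        have e4' : g + tz < g' + 1 / 2 := e4
        have : g = g'' := sep h ha ha'' (abs_sub_lt_iff.2 ⟨by linarith, by linarith⟩)
        have : g' = g + tz := by linarith
        rwa [← this]
      · have h0 : (⟨k, u, 0, 1 / 2⟩ : Pc) ∈ (⟨k, u, 0, 1 / 2⟩ :: ⟨k, u, 1 / 2, 1⟩ :: R) := by simp
        have := (h (n' + k, v + tv + u, g')).unique (y₁ := (p, a''))
          (y₂ := (⟨k, u, 0, 1 / 2⟩, (n', v + tv, g')))
          ⟨List.mem_cons_of_mem _ hp', ha'', hh'⟩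
          ⟨h0, ha', rfl, rfl, by simp, by show g' < g' + 1 / 2; linarith⟩
        exact ((hne p hp').2 (congrArg Prod.fst this)).elim
    · have := (h' _).unique (y₁ := (p, a'))
        (y₂ := (⟨k, u + tv, tz, tz + 1 / 2⟩, (n, v, g)))
        ⟨List.mem_cons_of_mem _ hp, ha', hh⟩ ⟨by simp, hmem.1, hmem.2⟩
      exact ((hne p hp).1 (congrArg Prod.fst this)).elim
  rintro ⟨n, v, g⟩
  refine ⟨fun hB => ?_, fun ha => by simpa using key n v g ha⟩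
  have hB' : (n, v + tv, g + tz) ∈ B := by simpa using hB
  obtain ⟨⟨p, a''⟩, ⟨hp', ha'', hh'⟩, -⟩ := h' (n + k, v + tv + u, g + tz)
  rcases List.mem_cons.1 hp' with rfl | hp'
  · obtain ⟨n'', v'', g''⟩ := a''
    obtain ⟨f1, f2, f3, f4⟩ := hh'
    obtain rfl : n'' = n := by simpa using f1
    have hv : v'' = v := by have : v'' + (u + tv) = v + tv + u := f2; omega
    subst hv
    have f3' : g'' + tz ≤ g + tz := f3
    have f4' : g + tz < g'' + (tz + 1 / 2) := f4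
    have := sep h hB' (key _ _ _ ha'') (abs_sub_lt_iff.2 ⟨by linarith, by linarith⟩)
    obtain rfl : g = g'' := by linarith
    exact ha''
  · have := (h (n + k, v + tv + u, g + tz)).unique (y₁ := (p, a''))
      (y₂ := (⟨k, u, 0, 1 / 2⟩, (n, v + tv, g + tz)))
      ⟨List.mem_cons_of_mem _ hp', ha'', hh'⟩
      ⟨by simp, hB', rfl, rfl, by simp, by show g + tz < g + tz + 1 / 2; linarith⟩
    exact ((hne p hp').2 (congrArg Prod.fst this)).elim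

/-- `B` is given by occupied classes and one phase on each of them. -/
def Rep (B : Set P3) (O : ℤ → ZMod 4 → Bool) (g : ℤ → ZMod 4 → ℝ) : Prop :=
  ∀ n (v : ℤ) z, (n, v, z) ∈ B ↔ O n (v : ZMod 4) = true ∧ Cg z (g n (v : ZMod 4))

/-- A piece is active at a cell. -/
def Act (O : ℤ → ZMod 4 → Bool) (g : ℤ → ZMod 4 → ℝ) (n v : ℤ) (z : ℝ) (p : Pc) : Prop :=
  O (n - p.k) ((v - p.u : ℤ) : ZMod 4) = true ∧
    Arc (g (n - p.k) ((v - p.u : ℤ) : ZMod 4) + p.lo) (p.hi - p.lo) z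

variable {B : Set P3} {O : ℤ → ZMod 4 → Bool} {g : ℤ → ZMod 4 → ℝ}

lemma hits_exists (hR : Rep B O g) {p : Pc} (hl : p.hi ≤ p.lo + 1) {n v : ℤ} {z : ℝ} :
    (∃ a ∈ B, Hits (n, v, z) p a) ↔ Act O g n v z p := by
  constructor
  · rintro ⟨⟨n', v', g'⟩, ha, e1, e2, e3, e4⟩
    simp only at e1 e2 e3 e4
    obtain rfl : n' = n - p.k := by omega
    obtain rfl : v' = v - p.u := by omega
    obtain ⟨hO, hg⟩ := (hR _ _ _).1 ha
    refine ⟨hO, ?_⟩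
    rw [arc_congr ((hg.add_right p.lo).symm)]
    unfold Arc
    rw [fract_of_mem (by linarith) (by linarith)]
    linarith
  · rintro ⟨hO, hA⟩
    set c := g (n - p.k) ((v - p.u : ℤ) : ZMod 4) with hc
    refine ⟨(n - p.k, v - p.u, c + ⌊z - (c + p.lo)⌋), (hR _ _ _).2 ⟨hO, ⟨_, rfl⟩⟩,
      by show n - p.k + p.k = n; ring, by show v - p.u + p.u = v; ring, ?_, ?_⟩
    · show c + ⌊z - (c + p.lo)⌋ + p.lo ≤ z
      linarith [Int.floor_le (z - (c + p.lo))]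
    · show z < c + ⌊z - (c + p.lo)⌋ + p.hi
      unfold Arc at hA
      rw [← Int.self_sub_floor] at hA
      linarith

lemma hits_unique (hR : Rep B O g) {p : Pc} (hl : p.hi ≤ p.lo + 1) {x a b : P3} (ha : a ∈ B)
    (hb : b ∈ B) (h1 : Hits x p a) (h2 : Hits x p b) : a = b := by
  obtain ⟨n, v, c⟩ := a
  obtain ⟨n', v', c'⟩ := b
  obtain ⟨e1, e2, e3, e4⟩ := h1
  obtain ⟨f1, f2, f3, f4⟩ := h2
  simp only at e1 e2 e3 e4 f1 f2 f3 f4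
  obtain rfl : n = n' := by omega
  obtain rfl : v = v' := by omega
  obtain ⟨m, hm⟩ := ((hR _ _ _).1 ha).2.trans ((hR _ _ _).1 hb).2.symm
  have a1 : m < 1 := Int.cast_lt (R := ℝ) |>.1 (by rw [Int.cast_one]; linarith)
  have a2 : -1 < m := Int.cast_lt (R := ℝ) |>.1 (by rw [Int.cast_neg, Int.cast_one]; linarith)
  obtain rfl : m = 0 := by omega
  simp at hm
  rw [hm]

/-- The equation in terms of occupied classes. -/
lemma sol_iff (hR : Rep B O g) {P : List Pc} (hl : ∀ p ∈ P, p.hi ≤ p.lo + 1) :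
    Sol P B ↔ ∀ n v z, ∃! p, p ∈ P ∧ Act O g n v z p := by
  constructor
  · intro h n v z
    obtain ⟨⟨p, a⟩, ⟨hp, ha, hh⟩, hu⟩ := h (n, v, z)
    refine ⟨p, ⟨hp, (hits_exists hR (hl p hp)).1 ⟨a, ha, hh⟩⟩, fun q hq => ?_⟩
    obtain ⟨b, hb, hh'⟩ := (hits_exists hR (hl q hq.1)).2 hq.2
    exact congrArg Prod.fst (hu (q, b) ⟨hq.1, hb, hh'⟩)
  · rintro h ⟨n, v, z⟩
    obtain ⟨p, ⟨hp, hA⟩, hu⟩ := h n v z
    obtain ⟨a, ha, hh⟩ := (hits_exists hR (hl p hp)).2 hA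
    refine ⟨(p, a), ⟨hp, ha, hh⟩, ?_⟩
    rintro ⟨q, b⟩ ⟨hq, hb, hh'⟩
    obtain rfl : q = p := hu q ⟨hq, (hits_exists hR (hl q hq)).1 ⟨b, hb, hh'⟩⟩
    exact Prod.ext rfl (hits_unique hR (hl q hq) hb ha hh' hh)

/-- Exactly one of four. -/
def ex1 (a b c d : Bool) : Bool := a.toNat + b.toNat + c.toNat + d.toNat == 1

lemma existsUnique_four {α : Type} {a b c d : α} (hab : a ≠ b) (hac : a ≠ c) (had : a ≠ d)
    (hbc : b ≠ c) (hbd : b ≠ d) (hcd : c ≠ d) {Q : α → Prop} {f : α → Bool}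
    (hQ : ∀ x ∈ [a, b, c, d], Q x ↔ f x = true) :
    (∃! x, x ∈ [a, b, c, d] ∧ Q x) ↔ ex1 (f a) (f b) (f c) (f d) = true := by
  have e : (∃! x, x ∈ [a, b, c, d] ∧ Q x) ↔ ∃! x, x ∈ [a, b, c, d] ∧ f x = true :=
    existsUnique_congr fun x => and_congr_right fun hx => hQ x hx
  rw [e]
  cases ha : f a <;> cases hb : f b <;> cases hc : f c <;> cases hd : f d <;>
    simp [ex1, ExistsUnique] <;> grind

/-- An equation with four unit arcs counts occupied classes. -/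
lemma count_four (hR : Rep B O g) {a b c d : Pc} (hab : a ≠ b) (hac : a ≠ c) (had : a ≠ d)
    (hbc : b ≠ c) (hbd : b ≠ d) (hcd : c ≠ d) (hl : ∀ p ∈ [a, b, c, d], p.hi = p.lo + 1) :
    Sol [a, b, c, d] B ↔ ∀ n v : ℤ, ex1 (O (n - a.k) ((v - a.u : ℤ) : ZMod 4))
      (O (n - b.k) ((v - b.u : ℤ) : ZMod 4)) (O (n - c.k) ((v - c.u : ℤ) : ZMod 4))
      (O (n - d.k) ((v - d.u : ℤ) : ZMod 4)) = true := by
  rw [sol_iff hR fun p hp => (hl p hp).le]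
  refine ⟨fun h n v => ?_, fun h n v z => ?_⟩
  on_goal 1 => have := h n v 0
  on_goal 2 => have := h n v
  all_goals
    rw [existsUnique_four (f := fun p => O (n - p.k) ((v - p.u : ℤ) : ZMod 4)) hab hac had hbc hbd hcd] at *
    · exact this
    all_goals
      intro p hp
      simp [Act, Arc, hl p hp, Int.fract_lt_one]

end Vale.Agent.P043.R3
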