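import Vale.Agent.P043.R3.Slope

/-!
P043, dimension three: the system has a solution and meets the requirements of the lifting.
-/

namespace Vale.Agent.P043.R3

/-- Occupied classes of the solution. -/
def occ0 (n : ℤ) (v : ZMod 4) : Bool := sq (n : ZMod 4) v

/-- Whether a cell carries the slope. -/
def odd0 (n v : ZMod 4) : Bool := (n.val + v.val) % 2 == 1

/-- Phases of the solution. -/
noncomputable def g0 (n : ℤ) (v : ZMod 4) : ℝ :=
  if odd0 (n : ZMod 4) v then (n : ℝ) * dlt else 0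

/-- The solution. -/
def sol0 : Set P3 := {a | occ0 a.1 (a.2.1 : ZMod 4) = true ∧ Cg a.2.2 (g0 a.1 (a.2.1 : ZMod 4))}

lemma rep0 : Rep sol0 occ0 g0 := fun _ _ _ => Iff.rfl

/-- An arc by coefficients: start `x₁ + x₂ dlt`, length `y₁ + y₂ dlt`. -/
abbrev Seg : Type := (ℤ × ℤ) × (ℤ × ℤ)

/-- The arc of a segment shifted by `b`. -/
def Seg.arc (b : ℝ) (x : Seg) (z : ℝ) : Prop :=
  Arc (b + x.1.1 + x.1.2 * dlt) (x.2.1 + x.2.2 * dlt) z

/-- Small positive lengths. -/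
def okLen (y : ℤ × ℤ) : Bool :=
  (y.1 == 0 && decide (0 < y.2) && decide (y.2 < 16)) ||
    (y.1 == 1 && decide (y.2 < 0) && decide (-16 < y.2))

/-- Consecutive segments up to a total length. -/
def chainOk : List Seg → ℤ × ℤ → Bool
  | [], _ => false
  | [x], tot => okLen x.2 && (x.2 == tot)
  | x :: y :: l, tot => okLen x.2 && (x.1.2 + x.2.2 == y.1.2) && chainOk (y :: l) (tot - x.2)

lemma okLen_pos {y : ℤ × ℤ} (h : okLen y = true) :
    (0 : ℝ) < y.1 + y.2 * dlt ∧ (y.1 : ℝ) + y.2 * dlt < 1 := by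
  have := dlt_pos
  have := dlt_small
  simp [okLen] at h
  rcases h with ⟨⟨h1, h2⟩, h3⟩ | ⟨⟨h1, h2⟩, h3⟩
  all_goals
    rw [h1]
    have a : (y.2 : ℝ) * dlt = dlt * y.2 := mul_comm _ _
  · have b2 : (1 : ℝ) ≤ y.2 := by exact_mod_cast h2
    have b3 : (y.2 : ℝ) ≤ 16 := by exact_mod_cast h3.le
    constructor <;> push_cast <;> nlinarith
  · have b2 : (y.2 : ℝ) ≤ -1 := by exact_mod_cast (show y.2 ≤ -1 by omega)
    have b3 : (-16 : ℝ) ≤ y.2 := by exact_mod_cast h3.le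
    constructor <;> push_cast <;> nlinarith

lemma chain_arcs : ∀ (l : List Seg) (tot : ℤ × ℤ), chainOk l tot = true →
    (tot.1 : ℝ) + tot.2 * dlt ≤ 1 → ∀ (b : ℝ) (x : Seg) (l' : List Seg), l = x :: l' →
    0 ≤ (tot.1 : ℝ) + tot.2 * dlt ∧
    ∀ z, ((∃ y ∈ l, y.arc b z) ↔ Arc (b + x.1.1 + x.1.2 * dlt) (tot.1 + tot.2 * dlt) z) ∧
      l.Pairwise fun y y' => ¬ (y.arc b z ∧ y'.arc b z)
  | [], _, h, _, _, _, _, _ => by simp [chainOk] at h
  | [x], tot, h, _, b, _, _, rfl => by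
    simp [chainOk] at h
    obtain ⟨hok, rfl⟩ := h
    exact ⟨(okLen_pos hok).1.le, fun z => by simp [Seg.arc]⟩
  | x :: y :: l, tot, h, htot, b, _, _, rfl => by
    simp only [chainOk, Bool.and_eq_true, beq_iff_eq] at h
    obtain ⟨⟨hok, hnext⟩, hrest⟩ := h
    have hx := okLen_pos hok
    have e : (((tot - x.2).1 : ℤ) : ℝ) + ((tot - x.2).2 : ℤ) * dlt =
        (tot.1 : ℝ) + tot.2 * dlt - (x.2.1 + x.2.2 * dlt) := by
      simp only [Prod.fst_sub, Prod.snd_sub]; push_cast; ring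
    obtain ⟨h0, ih⟩ := chain_arcs (y :: l) _ hrest (by rw [e]; linarith) b y l rfl
    rw [e] at h0
    refine ⟨by linarith, fun z => ?_⟩
    have hs := arc_split (a := b + x.1.1 + x.1.2 * dlt) (x := x.2.1 + x.2.2 * dlt)
      (y := (tot.1 + tot.2 * dlt) - (x.2.1 + x.2.2 * dlt)) (z := z) hx.1.le h0 (by linarith)
    have hc : Cg (b + x.1.1 + x.1.2 * dlt + (x.2.1 + x.2.2 * dlt)) (b + y.1.1 + y.1.2 * dlt) :=
      ⟨x.1.1 + x.2.1 - y.1.1, by rw [← hnext]; push_cast; ring⟩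
    rw [arc_congr hc, add_sub_cancel] at hs
    obtain ⟨hiff, hpw⟩ := ih z
    rw [e] at hiff
    refine ⟨?_, List.pairwise_cons.2 ⟨fun y' hy' hh => hs.2 ⟨hh.1, hiff.1 ⟨y', hy', hh.2⟩⟩, hpw⟩⟩
    rw [List.exists_mem_cons_iff, hiff]
    exact hs.1.symm

/-- The data active at a cell. -/
def actList (i c : ZMod 4) : List Dat :=
  slopeDat.filter fun d => sq (i - (d.k : ZMod 4)) (c - (d.u : ZMod 4))

/-- The segment of a datum at a cell. -/
def segOf (odd : Bool) (d : Dat) : Seg :=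
  ((d.a, d.b - (if odd then d.k else 0)), (d.c - d.a, d.e - d.b))

lemma active_chains : ∀ i c : ZMod 4, ∃ odd : Bool,
    (∀ d ∈ actList i c, odd0 (i - (d.k : ZMod 4)) (c - (d.u : ZMod 4)) = odd) ∧
    ∃ l ∈ (actList i c).permutations', chainOk (l.map (segOf odd)) (1, 0) = true := by
  decide +kernel

lemma sol_slope : Sol (slopeDat.map Dat.pc) sol0 := by
  rw [sol_iff rep0 slope_len]
  intro n v z
  obtain ⟨odd, hodd, l, hl, hch⟩ := active_chains (n : ZMod 4) (v : ZMod 4)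
  rw [List.mem_permutations'] at hl
  set b : ℝ := if odd then (n : ℝ) * dlt else 0 with hb
  have hiff : ∀ d : Dat, (d ∈ slopeDat ∧ Act occ0 g0 n v z d.pc) ↔
      d ∈ l ∧ (segOf odd d).arc b z := by
    intro d
    have e1 : occ0 (n - d.k) ((v - d.u : ℤ) : ZMod 4) =
        sq ((n : ZMod 4) - (d.k : ZMod 4)) ((v : ZMod 4) - (d.u : ZMod 4)) := by simp [occ0]
    have hmem : d ∈ l ↔ d ∈ slopeDat ∧ occ0 (n - d.k) ((v - d.u : ℤ) : ZMod 4) = true := by
      rw [hl.mem_iff, actList, List.mem_filter, e1]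
    have e2 : d ∈ l → (Arc (g0 (n - d.k) ((v - d.u : ℤ) : ZMod 4) + d.pc.lo) (d.pc.hi - d.pc.lo) z
        ↔ (segOf odd d).arc b z) := by
      intro hd
      have ho := hodd d (hl.mem_iff.1 hd)
      have eg : g0 (n - d.k) ((v - d.u : ℤ) : ZMod 4) =
          if odd then ((n : ℝ) - d.k) * dlt else 0 := by
        simp [g0, ho]
      unfold Seg.arc segOf
      rw [eg]
      simp only [Dat.pc, hb]
      cases odd <;> simp only [Bool.false_eq_true, if_false, if_true] <;> push_cast <;> ring_nf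
    constructor
    · rintro ⟨hd, hO, hA⟩
      have hdl := hmem.2 ⟨hd, hO⟩
      exact ⟨hdl, (e2 hdl).1 hA⟩
    · rintro ⟨hdl, hA⟩
      exact ⟨(hmem.1 hdl).1, (hmem.1 hdl).2, (e2 hdl).2 hA⟩
  obtain ⟨x, l', hxl⟩ : ∃ x l', l.map (segOf odd) = x :: l' := by
    rcases hm : l.map (segOf odd) with _ | ⟨x, l'⟩
    · rw [hm] at hch; simp [chainOk] at hch
    · exact ⟨x, l', rfl⟩
  obtain ⟨-, harcs⟩ := chain_arcs _ _ hch (by simp) b x l' hxl
  obtain ⟨hcov, hpw⟩ := harcs z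
  obtain ⟨y, hy, hyz⟩ := hcov.2 (by simp [Arc, Int.fract_lt_one])
  obtain ⟨d, hd, rfl⟩ := List.mem_map.1 hy
  refine ⟨d.pc, ⟨List.mem_map_of_mem ((hiff d).2 ⟨hd, hyz⟩).1, ((hiff d).2 ⟨hd, hyz⟩).2⟩, ?_⟩
  rintro p ⟨hp, hA⟩
  obtain ⟨d', hd', rfl⟩ := List.mem_map.1 hp
  obtain ⟨hd'l, hd'z⟩ := (hiff d').1 ⟨hd', hA⟩
  by_contra hne
  rw [List.pairwise_map] at hpw
  have : Std.Symm fun a a' : Dat => ¬((segOf odd a).arc b z ∧ (segOf odd a').arc b z) :=
    ⟨fun _ _ h hh => h hh.symm⟩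
  exact hpw.forall hd'l hd (fun e => hne (by rw [e])) ⟨hd'z, hyz⟩

lemma occ0_counts : ∀ n v : ZMod 4,
    ex1 (sq n v) (sq n (v - 2)) (sq (n - 2) v) (sq (n - 2) (v - 2)) = true ∧
    ex1 (sq n v) (sq (n - 4) (v - 2)) (sq (n - 2) v) (sq (n - 2) (v - 2)) = true ∧
    ex1 (sq n (v - 2)) (sq n v) (sq (n - 2) (v - 1)) (sq (n - 2) (v - 3)) = true ∧
    ex1 (sq n v) (sq (n - 1) (v - 2)) (sq (n - 2) v) (sq (n - 3) (v - 2)) = true := by
  decide

/-- The split equations have the same solution. -/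
lemma sol_split {u : ℤ} {lo : ℝ} (hu : (u : ZMod 4) = 2) (hlo : lo = 0 ∨ lo = 1) :
    Sol [⟨0, u, lo, lo + 1 / 2⟩, ⟨0, 2, 1 / 2, 1⟩, ⟨0, 0, 0, 1⟩, ⟨2, 1, 0, 1⟩, ⟨2, 3, 0, 1⟩]
      sol0 := by
  rw [sol_iff rep0 (by simp; norm_num)]
  intro n v z
  have hc := (occ0_counts (n : ZMod 4) (v : ZMod 4)).2.2.1
  set s := g0 n ((v : ZMod 4) - 2) with hs
  have hsplit := arc_split (a := s) (x := 1 / 2) (y := 1 / 2) (z := z) (by norm_num) (by norm_num)
    (by norm_num)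
  rw [show (1 : ℝ) / 2 + 1 / 2 = 1 by norm_num] at hsplit
  have hall : Arc s 1 z := Int.fract_lt_one _
  have ha : Act occ0 g0 n v z ⟨0, u, lo, lo + 1 / 2⟩ ↔
      sq (n : ZMod 4) ((v : ZMod 4) - 2) = true ∧ Arc s (1 / 2) z := by
    simp only [Act, sub_zero, Int.cast_sub, hu, occ0, add_sub_cancel_left]
    rw [← hs, arc_congr (s' := s) (by rcases hlo with rfl | rfl; exacts [⟨0, by simp⟩, ⟨1, by simp⟩])]
  have hb : Act occ0 g0 n v z ⟨0, 2, 1 / 2, 1⟩ ↔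
      sq (n : ZMod 4) ((v : ZMod 4) - 2) = true ∧ Arc (s + 1 / 2) (1 / 2) z := by
    simp only [Act, sub_zero, Int.cast_sub, Int.cast_ofNat, occ0]
    rw [← hs, show (1 : ℝ) - 1 / 2 = 1 / 2 by norm_num]
  have hc1 : Act occ0 g0 n v z ⟨0, 0, 0, 1⟩ ↔ sq (n : ZMod 4) (v : ZMod 4) = true := by
    simp [Act, Arc, Int.fract_lt_one, occ0]
  have hc2 : Act occ0 g0 n v z ⟨2, 1, 0, 1⟩ ↔
      sq ((n : ZMod 4) - 2) ((v : ZMod 4) - 1) = true := by
    simp [Act, Arc, Int.fract_lt_one, occ0]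
  have hc3 : Act occ0 g0 n v z ⟨2, 3, 0, 1⟩ ↔
      sq ((n : ZMod 4) - 2) ((v : ZMod 4) - 3) = true := by
    simp [Act, Arc, Int.fract_lt_one, occ0]
  revert hc ha hb hc1 hc2 hc3
  generalize sq (n : ZMod 4) ((v : ZMod 4) - 2) = A
  generalize sq (n : ZMod 4) (v : ZMod 4) = C1
  generalize sq ((n : ZMod 4) - 2) ((v : ZMod 4) - 1) = C2
  generalize sq ((n : ZMod 4) - 2) ((v : ZMod 4) - 3) = C3
  intro hc ha hb hc1 hc2 hc3
  simp only [List.mem_cons, List.not_mem_nil, or_false, ExistsUnique]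
  cases A <;> cases C1 <;> cases C2 <;> cases C3 <;> simp [ex1] at hc
  all_goals simp only [Bool.false_eq_true, false_and, true_and, iff_false, iff_true] at ha hb hc1 hc2 hc3
  · refine ⟨⟨2, 3, 0, 1⟩, ⟨by simp, hc3⟩, ?_⟩
    rintro p ⟨rfl | rfl | rfl | rfl | rfl, hp⟩ <;> first | rfl | exact absurd hp ‹_›
  · refine ⟨⟨2, 1, 0, 1⟩, ⟨by simp, hc2⟩, ?_⟩
    rintro p ⟨rfl | rfl | rfl | rfl | rfl, hp⟩ <;> first | rfl | exact absurd hp ‹_›
  · refine ⟨⟨0, 0, 0, 1⟩, ⟨by simp, hc1⟩, ?_⟩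
    rintro p ⟨rfl | rfl | rfl | rfl | rfl, hp⟩ <;> first | rfl | exact absurd hp ‹_›
  · rcases hsplit.1.1 hall with h | h
    · refine ⟨⟨0, u, lo, lo + 1 / 2⟩, ⟨by simp, ha.2 h⟩, ?_⟩
      rintro p ⟨rfl | rfl | rfl | rfl | rfl, hp⟩ <;>
        first | rfl | exact absurd hp ‹_› | exact absurd ⟨h, hb.1 hp⟩ hsplit.2
    · refine ⟨⟨0, 2, 1 / 2, 1⟩, ⟨by simp, hb.2 h⟩, ?_⟩
      rintro p ⟨rfl | rfl | rfl | rfl | rfl, hp⟩ <;>
        first | rfl | exact absurd hp ‹_› | exact absurd ⟨ha.1 hp, h⟩ hsplit.2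

/-- The system has a solution. -/
theorem sys_sol : ∃ B : Set P3, ∀ l, Sol (sys l) B := by
  refine ⟨sol0, fun l => ?_⟩
  fin_cases l
  · refine (count_four rep0 (by simp) (by simp) (by simp) (by simp) (by simp) (by simp)
      (by simp; norm_num)).2 fun n v => ?_
    simpa [occ0] using (occ0_counts (n : ZMod 4) (v : ZMod 4)).1
  · refine (count_four rep0 (by simp) (by simp) (by simp) (by simp) (by simp) (by simp)
      (by simp)).2 fun n v => ?_
    simpa [occ0] using (occ0_counts (n : ZMod 4) (v : ZMod 4)).2.1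
  · have := sol_split (u := 2) (lo := 0) rfl (Or.inl rfl)
    simpa [sys] using this
  · have := sol_split (u := 6) (lo := 0) rfl (Or.inl rfl)
    simpa [sys] using this
  · have := sol_split (u := 2) (lo := 1) rfl (Or.inr rfl)
    show Sol [⟨0, 2, 1, 3 / 2⟩, _, _, _, _] sol0
    rw [show (3 : ℝ) / 2 = 1 + 1 / 2 by norm_num]
    exact this
  · refine (count_four rep0 (by simp) (by simp) (by simp) (by simp) (by simp) (by simp)
      (by simp; norm_num)).2 fun n v => ?_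
    simpa [occ0] using (occ0_counts (n : ZMod 4) (v : ZMod 4)).2.2.2
  · exact sol_slope

lemma slope_dats : ∀ d ∈ slopeDat, ∀ d' ∈ slopeDat, d.k = d'.k → d.u = d'.u → d = d' := by decide

/-- The system meets the requirements of the lifting. -/
theorem sys_fits : Fits sys (5 : Fin 7) := by
  have := dlt_pos
  have := dlt_small
  refine ⟨?_, ?_, ?_, ?_⟩
  · intro l p hp
    fin_cases l <;> simp [sys, slopeDat, Dat.pc] at hp <;> casesm* _ ∨ _ <;> subst hp <;>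
      simp only <;> refine ⟨?_, ?_, ?_⟩ <;> linarith
  · intro l p hp q hq hne hk hu
    by_cases h6 : l = 6
    · subst h6
      obtain ⟨d, hd, rfl⟩ := List.mem_map.1 (show p ∈ slopeDat.map Dat.pc from hp)
      obtain ⟨d', hd', rfl⟩ := List.mem_map.1 (show q ∈ slopeDat.map Dat.pc from hq)
      exact absurd (congrArg Dat.pc (slope_dats d hd d' hd' hk hu)) hne
    · fin_cases l <;> first | exact absurd rfl h6 | (
        simp [sys] at hp hq
        casesm* _ ∨ _ <;> subst hp <;> subst hq <;> simp at hne hk hu ⊢ <;> norm_num)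
  · intro z h0 h2
    by_cases h1 : z < 1
    · exact ⟨⟨0, 0, 0, 1⟩, by simp [sys], h0, h1⟩
    · exact ⟨⟨0, 2, 1, 2⟩, by simp [sys], not_lt.1 h1, h2⟩
  · intro p hp
    simp [sys] at hp
    casesm* _ ∨ _ <;> subst hp <;> rfl

end Vale.Agent.P043.R3
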