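import Vale.Agent.P043.R3.Eqs

/-!
P043, dimension three: the finite equations force a two by two square of occupied classes.
-/

namespace Vale.Agent.P043.R3

/-- The square. -/
def sq (n v : ZMod 4) : Bool := (n == 0 || n == 1) && (v == 0 || v == 1)

/-- A choice of row and lift in each parity class, as a set of cells. -/
def ofChoice (c : Bool → Bool → Bool × Bool) (n v : ZMod 4) : Bool :=
  let p := c (n.val % 2 == 1) (v.val % 2 == 1)
  (n.val / 2 == p.1.toNat) && (v.val / 2 == p.2.toNat)

lemma ex1_choice : ∀ a b c d : Bool, ex1 a b c d = true →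
    a = (!(c || d) && !(b || d)) ∧ b = (!(c || d) && (b || d)) ∧
      c = ((c || d) && !(b || d)) ∧ d = ((c || d) && (b || d)) := by decide

lemma ex1_second : ∀ a b b' c d : Bool, ex1 a b c d = true → ex1 a b' c d = true → b = b' := by
  decide

lemma choice_square : ∀ a b c d : Bool × Bool,
    (let f := ofChoice fun e u => if e then (if u then d else c) else (if u then b else a)
     ∀ n v : ZMod 4, ex1 (f n (v - 2)) (f n v) (f (n - 2) (v - 1)) (f (n - 2) (v - 3)) = true ∧
        ex1 (f n v) (f (n - 1) (v - 2)) (f (n - 2) v) (f (n - 3) (v - 2)) = true) →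
    ∃ r w : ZMod 4, ∀ n v : ZMod 4,
      ofChoice (fun e u => if e then (if u then d else c) else (if u then b else a)) n v =
        sq (n - r) (v - w) := by
  decide

/-- The finite equations have only squares as solutions. -/
lemma finite_square (f : ZMod 4 → ZMod 4 → Bool)
    (h1 : ∀ n v, ex1 (f n v) (f n (v - 2)) (f (n - 2) v) (f (n - 2) (v - 2)) = true)
    (h5 : ∀ n v, ex1 (f n (v - 2)) (f n v) (f (n - 2) (v - 1)) (f (n - 2) (v - 3)) = true)
    (h6 : ∀ n v, ex1 (f n v) (f (n - 1) (v - 2)) (f (n - 2) v) (f (n - 3) (v - 2)) = true) :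
    ∃ r w : ZMod 4, ∀ n v, f n v = sq (n - r) (v - w) := by
  set c : ZMod 4 → ZMod 4 → Bool × Bool := fun e u =>
    (f (e + 2) u || f (e + 2) (u + 2), f e (u + 2) || f (e + 2) (u + 2)) with hc
  have hf : ∀ n v, f n v = ofChoice (fun e u => if e then (if u then c 1 1 else c 1 0)
      else (if u then c 0 1 else c 0 0)) n v := by
    have key : ∀ e u : ZMod 4,
        f e u = (!(c e u).1 && !(c e u).2) ∧ f e (u + 2) = (!(c e u).1 && (c e u).2) ∧
        f (e + 2) u = ((c e u).1 && !(c e u).2) ∧ f (e + 2) (u + 2) = ((c e u).1 && (c e u).2) := by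
      intro e u
      have := h1 (e + 2) (u + 2)
      simp only [add_sub_cancel_right] at this
      refine ex1_choice _ _ _ _ ?_
      simpa [ex1, add_comm, add_left_comm, add_assoc] using this
    intro n v
    fin_cases n <;> fin_cases v
    all_goals simp only [ofChoice]
    · exact (key 0 0).1.trans (by cases c 0 0 with | mk x y => cases x <;> cases y <;> rfl)
    · exact (key 0 1).1.trans (by cases c 0 1 with | mk x y => cases x <;> cases y <;> rfl)
    · exact (key 0 0).2.1.trans (by cases c 0 0 with | mk x y => cases x <;> cases y <;> rfl)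
    · exact (key 0 1).2.1.trans (by cases c 0 1 with | mk x y => cases x <;> cases y <;> rfl)
    · exact (key 1 0).1.trans (by cases c 1 0 with | mk x y => cases x <;> cases y <;> rfl)
    · exact (key 1 1).1.trans (by cases c 1 1 with | mk x y => cases x <;> cases y <;> rfl)
    · exact (key 1 0).2.1.trans (by cases c 1 0 with | mk x y => cases x <;> cases y <;> rfl)
    · exact (key 1 1).2.1.trans (by cases c 1 1 with | mk x y => cases x <;> cases y <;> rfl)
    · exact (key 0 0).2.2.1.trans (by cases c 0 0 with | mk x y => cases x <;> cases y <;> rfl)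
    · exact (key 0 1).2.2.1.trans (by cases c 0 1 with | mk x y => cases x <;> cases y <;> rfl)
    · exact (key 0 0).2.2.2.trans (by cases c 0 0 with | mk x y => cases x <;> cases y <;> rfl)
    · exact (key 0 1).2.2.2.trans (by cases c 0 1 with | mk x y => cases x <;> cases y <;> rfl)
    · exact (key 1 0).2.2.1.trans (by cases c 1 0 with | mk x y => cases x <;> cases y <;> rfl)
    · exact (key 1 1).2.2.1.trans (by cases c 1 1 with | mk x y => cases x <;> cases y <;> rfl)
    · exact (key 1 0).2.2.2.trans (by cases c 1 0 with | mk x y => cases x <;> cases y <;> rfl)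
    · exact (key 1 1).2.2.2.trans (by cases c 1 1 with | mk x y => cases x <;> cases y <;> rfl)
  obtain ⟨r, w, h⟩ := choice_square (c 0 0) (c 0 1) (c 1 0) (c 1 1)
    fun n v => by
      simp only [← hf]
      exact ⟨h5 n v, h6 n v⟩
  exact ⟨r, w, fun n v => (hf n v).trans (h n v)⟩

lemma periods {B : Set P3} (hv : ∀ a, a + (0, 4, 0) ∈ B ↔ a ∈ B)
    (hz : ∀ a, a + (0, 0, 1) ∈ B ↔ a ∈ B) (i j : ℤ) (n v : ℤ) (z : ℝ) :
    (n, v + 4 * i, z + j) ∈ B ↔ (n, v, z) ∈ B := by
  have h1 : Function.Periodic (· ∈ B) ((0, 4, 0) : P3) := fun a => propext (hv a)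
  have h2 : Function.Periodic (· ∈ B) ((0, 0, 1) : P3) := fun a => propext (hz a)
  have e : (n, v + 4 * i, z + j) = ((n, v, z) : P3) + i • ((0, 4, 0) : P3)
      + j • ((0, 0, 1) : P3) := by
    simp [mul_comm]
  rw [e]
  exact ((h2.zsmul j _).trans (h1.zsmul i _)).to_iff

/-- A solution of the system is a square of classes with one phase on each. -/
theorem structure_of_sol {B : Set P3} (h : ∀ l, Sol (sys l) B) :
    ∃ (g : ℤ → ZMod 4 → ℝ) (r : ℤ) (w : ZMod 4),
      Rep B (fun n v => sq ((n : ZMod 4) - (r : ZMod 4)) (v - w)) g := by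
  classical
  have hsep : ∀ {n v : ℤ} {z z' : ℝ}, (n, v, z) ∈ B → (n, v, z') ∈ B → |z - z'| < 1 → z = z' :=
    fun ha hb hlt => sep (h 2) ha hb hlt
  have hv : ∀ a, a + (0, 4, 0) ∈ B ↔ a ∈ B := by
    refine invariant (k := 0) (u := 2) (t := (0, 4, 0)) rfl ?_ (h 2) ?_
    · intro p hp
      simp only [List.mem_cons, List.not_mem_nil, or_false] at hp
      rcases hp with rfl | rfl | rfl | rfl <;> constructor <;> simp
    · convert h 3 using 1
      show _ = [_, _, _, _, _]
      norm_num
  have hz : ∀ a, a + (0, 0, 1) ∈ B ↔ a ∈ B := by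
    refine invariant (k := 0) (u := 2) (t := (0, 0, 1)) rfl ?_ (h 2) ?_
    · intro p hp
      simp only [List.mem_cons, List.not_mem_nil, or_false] at hp
      rcases hp with rfl | rfl | rfl | rfl <;> constructor <;> simp <;> norm_num
    · convert h 4 using 1
      show _ = [_, _, _, _, _]
      norm_num
  set O : ℤ → ZMod 4 → Bool := fun n w => decide (∃ (v : ℤ) (z : ℝ), (v : ZMod 4) = w ∧ (n, v, z) ∈ B)
  let g : ℤ → ZMod 4 → ℝ := fun n w =>
    if hx : ∃ (v : ℤ) (z : ℝ), (v : ZMod 4) = w ∧ (n, v, z) ∈ B then hx.choose_spec.choose else 0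
  have hR : Rep B O g := by
    intro n v z
    constructor
    · intro ha
      have hx : ∃ (v' : ℤ) (z : ℝ), (v' : ZMod 4) = v ∧ (n, v', z) ∈ B := ⟨v, z, rfl, ha⟩
      obtain ⟨e1, e2⟩ := hx.choose_spec.choose_spec
      refine ⟨decide_eq_true hx, ?_⟩
      simp only [g, dif_pos hx]
      generalize hx.choose_spec.choose = z₀ at e2 ⊢
      generalize hx.choose = v₀ at e1 e2
      obtain ⟨i, hi⟩ : ∃ i, v = v₀ + 4 * i := by
        obtain ⟨i, hi⟩ := (ZMod.intCast_eq_intCast_iff_dvd_sub _ _ 4).1 e1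
        push_cast at hi
        exact ⟨i, by omega⟩
      have hb := (periods hv hz i ⌊z - z₀⌋ n v₀ z₀).2 e2
      rw [← hi] at hb
      refine ⟨⌊z - z₀⌋, hsep ha hb (abs_sub_lt_iff.2 ⟨?_, ?_⟩)⟩
      · linarith [Int.lt_floor_add_one (z - z₀)]
      · linarith [Int.floor_le (z - z₀)]
    · rintro ⟨hO, hg⟩
      have hx := of_decide_eq_true hO
      obtain ⟨e1, e2⟩ := hx.choose_spec.choose_spec
      simp only [g, dif_pos hx] at hg
      obtain ⟨m, hm⟩ := hg
      obtain ⟨i, hi⟩ : ∃ i, v = hx.choose + 4 * i := by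
        obtain ⟨i, hi⟩ := (ZMod.intCast_eq_intCast_iff_dvd_sub _ _ 4).1 e1
        push_cast at hi
        exact ⟨i, by omega⟩
      have hb := (periods hv hz i m n _ _).2 e2
      rwa [← hi, ← hm] at hb
  have c1 := (count_four hR (by simp) (by simp) (by simp) (by simp) (by simp) (by simp)
    (by simp; norm_num)).1 (h 0)
  have c4 := (count_four hR (by simp) (by simp) (by simp) (by simp) (by simp) (by simp)
    (by simp)).1 (h 1)
  have c6 := (count_four hR (by simp) (by simp) (by simp) (by simp) (by simp) (by simp)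
    (by simp; norm_num)).1 (h 5)
  simp only [sub_zero, Int.cast_sub, Int.cast_ofNat] at c1 c4 c6
  have c5 : ∀ n v : ℤ, ex1 (O n ((v : ZMod 4) - 2)) (O n v) (O (n - 2) ((v : ZMod 4) - 1))
      (O (n - 2) ((v : ZMod 4) - 3)) = true := by
    intro n v
    have := (sol_iff hR (P := sys 2) (by simp [sys]; norm_num)).1 (h 2) n v
      (g n ((v - 2 : ℤ) : ZMod 4))
    have hb : ¬ Act O g n v (g n ((v - 2 : ℤ) : ZMod 4)) ⟨0, 2, 1 / 2, 1⟩ := by
      rintro ⟨-, hA⟩
      simp only [sub_zero] at hA
      unfold Arc at hA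
      rw [show g n ((v - 2 : ℤ) : ZMod 4) - (g n ((v - 2 : ℤ) : ZMod 4) + 1 / 2)
        = 1 / 2 + ((-1 : ℤ) : ℝ) by push_cast; ring, Int.fract_add_intCast,
        fract_of_mem (by norm_num) (by norm_num)] at hA
      norm_num at hA
    have e : (∃! p, p ∈ [(⟨0, 2, 0, 1 / 2⟩ : Pc), ⟨0, 0, 0, 1⟩, ⟨2, 1, 0, 1⟩, ⟨2, 3, 0, 1⟩] ∧
        Act O g n v (g n ((v - 2 : ℤ) : ZMod 4)) p) := by
      refine (existsUnique_congr fun p => ?_).1 this
      constructor
      · rintro ⟨hp, hA⟩
        refine ⟨?_, hA⟩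
        simp [sys] at hp
        rcases hp with rfl | rfl | rfl | rfl | rfl <;> first | simp; done | exact (hb (by simpa using hA)).elim
      · rintro ⟨hp, hA⟩
        refine ⟨?_, hA⟩
        simp at hp
        rcases hp with rfl | rfl | rfl | rfl <;> simp [sys]
    rw [existsUnique_four (f := fun p => O (n - p.k) ((v - p.u : ℤ) : ZMod 4)) (by simp) (by simp)
      (by simp) (by simp) (by simp) (by simp)] at e
    · simpa using e
    · intro p hp
      simp at hp
      rcases hp with rfl | rfl | rfl | rfl <;> simp [Act, Arc, Int.fract_lt_one]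
  have per : ∀ w, Function.Periodic (fun n => O n w) 4 := by
    intro w n
    obtain ⟨v, rfl⟩ := ZMod.intCast_surjective w
    have a := c1 (n + 4) (v + 2)
    have b := c4 (n + 4) (v + 2)
    simp only [Int.cast_add, Int.cast_ofNat, add_sub_cancel_right] at a b
    exact ex1_second _ _ _ _ _ a b
  have perC : ∀ (n m : ℤ) w, (n : ZMod 4) = (m : ZMod 4) → O n w = O m w := by
    intro n m w e
    obtain ⟨i, hi⟩ := (ZMod.intCast_eq_intCast_iff_dvd_sub _ _ 4).1 e
    push_cast at hi
    have := (per w).int_mul i n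
    rw [Int.cast_id, show n + i * 4 = m by linarith] at this
    exact this.symm
  set f : ZMod 4 → ZMod 4 → Bool := fun n w => O (n.cast : ℤ) w
  have hOf : ∀ n w, O n w = f (n : ZMod 4) w := fun n w => perC _ _ _ (by simp)
  simp only [hOf, Int.cast_sub, Int.cast_ofNat, Int.cast_one] at c1 c5 c6
  have lift : ∀ {P : ZMod 4 → ZMod 4 → Prop}, (∀ n v : ℤ, P n v) → ∀ n v, P n v :=
    fun hP n v => by
      obtain ⟨n, rfl⟩ := ZMod.intCast_surjective n
      obtain ⟨v, rfl⟩ := ZMod.intCast_surjective v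
      exact hP n v
  obtain ⟨r, w, hsq⟩ := finite_square f (lift c1) (lift c5) (lift c6)
  obtain ⟨r, rfl⟩ := ZMod.intCast_surjective r
  refine ⟨g, r, w, fun n v z => ?_⟩
  rw [hR n v z, hOf, hsq]

end Vale.Agent.P043.R3
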