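import Mathlib

/-!
P043, dimension three: typed dented squares in the plane.

The square of type `τ : ZMod L` has two holes; the first encodes `τ` and is filled only by the bump
of a square of type `τ - 1` on its left, the second is filled only by the bump of a square of type
`τ` below it.  So every exact tiling is a grid whose types increase by one along the first axis.
-/

namespace Vale.Agent.P043.R3

variable (L : ℕ)

/-- length unit of the square -/
def sz : ℝ := 2 * (L : ℝ) + 1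

/-- side of the square -/
def wid : ℝ := 10 * sz L

/-- the box of code `K` with lower corner `w` -/
def CodeBox (w : ℝ × ℝ) (K : ℕ) (y : ℝ × ℝ) : Prop :=
  (w.1 ≤ y.1 ∧ y.1 < w.1 + ((K : ℝ) + 1)) ∧ (w.2 ≤ y.2 ∧ y.2 < w.2 + (2 * (L : ℝ) - (K : ℝ)))

/-- first hole -/
def HoleX (τ : ZMod L) (y : ℝ × ℝ) : Prop := CodeBox L (4 * sz L, 4 * sz L) τ.val y

/-- second hole -/
def HoleY (τ : ZMod L) (y : ℝ × ℝ) : Prop := CodeBox L (6 * sz L, 6 * sz L) (L + τ.val) y

/-- the square without its holes -/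
def Core (τ : ZMod L) (y : ℝ × ℝ) : Prop :=
  ((0 ≤ y.1 ∧ y.1 < wid L) ∧ (0 ≤ y.2 ∧ y.2 < wid L)) ∧ ¬ HoleX L τ y ∧ ¬ HoleY L τ y

/-- the typed square -/
def Sq (τ : ZMod L) (y : ℝ × ℝ) : Prop :=
  Core L τ y ∨ HoleX L (τ + 1) (y - (wid L, 0)) ∨ HoleY L τ (y - (0, wid L))

/-- the grid point with integer coordinates `m` -/
def gp (m : ℤ × ℤ) : ℝ × ℝ := (wid L * (m.1 : ℝ), wid L * (m.2 : ℝ))

lemma gp_add (m n : ℤ × ℤ) : gp L (m + n) = gp L m + gp L n := by
  ext <;> simp [gp] <;> ring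

lemma sz_ge : 1 ≤ sz L := by unfold sz; linarith [Nat.cast_nonneg (α := ℝ) L]

lemma wid_pos : 0 < wid L := by unfold wid; linarith [sz_ge L]

variable [NeZero L]

lemma val_real (τ : ZMod L) : (τ.val : ℝ) + 1 ≤ (L : ℝ) := by exact_mod_cast τ.val_lt

lemma holeX_range {τ : ZMod L} {y : ℝ × ℝ} (h : HoleX L τ y) :
    (4 * sz L ≤ y.1 ∧ y.1 < 5 * sz L) ∧ (4 * sz L ≤ y.2 ∧ y.2 < 5 * sz L) := by
  obtain ⟨⟨h1, h2⟩, h3, h4⟩ := h
  have := val_real L τ
  have := Nat.cast_nonneg (α := ℝ) τ.val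
  simp only [sz] at *
  refine ⟨⟨h1, ?_⟩, h3, ?_⟩ <;> linarith

lemma holeY_range {τ : ZMod L} {y : ℝ × ℝ} (h : HoleY L τ y) :
    (6 * sz L ≤ y.1 ∧ y.1 < 7 * sz L) ∧ (6 * sz L ≤ y.2 ∧ y.2 < 7 * sz L) := by
  obtain ⟨⟨h1, h2⟩, h3, h4⟩ := h
  have := val_real L τ
  have := Nat.cast_nonneg (α := ℝ) τ.val
  simp only [sz] at *
  push_cast at *
  refine ⟨⟨h1, ?_⟩, h3, ?_⟩ <;> linarith

lemma core_of_out {τ : ZMod L} {y : ℝ × ℝ} (h1 : 0 ≤ y.1 ∧ y.1 < wid L)
    (h2 : 0 ≤ y.2 ∧ y.2 < wid L) (h : y.1 < 4 * sz L ∨ 7 * sz L ≤ y.1) : Core L τ y := by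
  have := sz_ge L
  refine ⟨⟨h1, h2⟩, fun hX => ?_, fun hY => ?_⟩
  · have := (holeX_range L hX).1; rcases h with h | h <;> linarith [this.1, this.2]
  · have := (holeY_range L hY).1; rcases h with h | h <;> linarith [this.1, this.2]

lemma holeX_corner (τ : ZMod L) : HoleX L τ (4 * sz L, 4 * sz L) := by
  have := val_real L τ
  have := Nat.cast_nonneg (α := ℝ) τ.val
  refine ⟨⟨le_rfl, ?_⟩, le_rfl, ?_⟩ <;> linarith

lemma holeY_corner (τ : ZMod L) : HoleY L τ (6 * sz L, 6 * sz L) := by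
  have := val_real L τ
  have := Nat.cast_nonneg (α := ℝ) τ.val
  refine ⟨⟨le_rfl, ?_⟩, le_rfl, ?_⟩ <;> push_cast <;> linarith

lemma sq_bound {τ : ZMod L} {y : ℝ × ℝ} (h : Sq L τ y) :
    (0 ≤ y.1 ∧ y.1 ≤ 2 * wid L) ∧ (0 ≤ y.2 ∧ y.2 ≤ 2 * wid L) := by
  have := sz_ge L
  rcases h with ⟨⟨⟨a, b⟩, c, e⟩, -, -⟩ | h | h
  · unfold wid at *; refine ⟨⟨a, ?_⟩, c, ?_⟩ <;> linarith
  · obtain ⟨⟨a, b⟩, c, e⟩ := holeX_range L h
    simp only [Prod.fst_sub, Prod.snd_sub, sub_zero, wid] at a b c e ⊢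
    refine ⟨⟨?_, ?_⟩, ?_, ?_⟩ <;> linarith
  · obtain ⟨⟨a, b⟩, c, e⟩ := holeY_range L h
    simp only [Prod.fst_sub, Prod.snd_sub, sub_zero, wid] at a b c e ⊢
    refine ⟨⟨?_, ?_⟩, ?_, ?_⟩ <;> linarith

omit [NeZero L] in
lemma sub_box {P w : ℝ × ℝ} {K K' : ℕ} (hK' : (K' : ℝ) < 2 * (L : ℝ)) (hP : CodeBox L w K' P)
    (h : ∀ y, CodeBox L w K' y → CodeBox L P K y) : K = K' ∧ w = P := by
  obtain ⟨⟨p1, p2⟩, p3, p4⟩ := hP
  have hK0 := Nat.cast_nonneg (α := ℝ) K'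
  obtain ⟨⟨a1, -⟩, a3, -⟩ := h w ⟨⟨le_rfl, by linarith⟩, le_rfl, by linarith⟩
  have e1 : w.1 = P.1 := le_antisymm p1 a1
  have e2 : w.2 = P.2 := le_antisymm p3 a3
  have k1 : (K' : ℝ) ≤ (K : ℝ) := by
    by_contra hc; push Not at hc
    have := (h (P.1 + ((K : ℝ) + 1), P.2) ⟨⟨by simp only; linarith [Nat.cast_nonneg (α := ℝ) K],
      by simp only; linarith⟩, p3, p4⟩).1.2
    simp at this
  have k2 : (K : ℝ) ≤ (K' : ℝ) := by
    by_contra hc; push Not at hc
    by_cases hk : (K : ℝ) ≤ 2 * (L : ℝ)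
    · have := (h (P.1, P.2 + (2 * (L : ℝ) - (K : ℝ))) ⟨⟨p1, p2⟩,
        by simp only; linarith, by simp only; linarith⟩).2.2
      simp at this
    · have := (h P ⟨⟨p1, p2⟩, p3, p4⟩).2.2
      linarith
  exact ⟨by exact_mod_cast le_antisymm k2 k1, Prod.ext e1 e2⟩

/-- the typed squares at the positions in `P` cover every point of the plane exactly once -/
def ExactSq (P : Set ((ℝ × ℝ) × ZMod L)) : Prop := ∀ y, ∃! q, q ∈ P ∧ Sq L q.2 (y - q.1)

variable {L} {P : Set ((ℝ × ℝ) × ZMod L)} (hP : ExactSq L P)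

include hP in
lemma sq_near {q r : (ℝ × ℝ) × ZMod L} (hq : q ∈ P) (hr : r ∈ P)
    (h1 : |r.1.1 - q.1.1| < wid L) (h2 : |r.1.2 - q.1.2| < wid L) : q = r := by
  obtain ⟨a1, b1⟩ := abs_lt.1 h1
  obtain ⟨a2, b2⟩ := abs_lt.1 h2
  have hs := sz_ge L
  have hw : wid L = 10 * sz L := rfl
  set v := r.1.1 - q.1.1 with hv
  obtain ⟨x, hx, hx', ho, ho'⟩ : ∃ x, (0 ≤ x ∧ x < wid L) ∧ (0 ≤ x - v ∧ x - v < wid L) ∧
      (x < 4 * sz L ∨ 7 * sz L ≤ x) ∧ (x - v < 4 * sz L ∨ 7 * sz L ≤ x - v) := by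
    rcases le_total 0 v with hv0 | hv0
    · by_cases hm : 4 * sz L ≤ v ∧ v < 7 * sz L
      · exact ⟨7 * sz L, ⟨by linarith, by linarith⟩, ⟨by linarith, by linarith⟩, Or.inr le_rfl,
          Or.inl (by linarith)⟩
      · refine ⟨v, ⟨hv0, b1⟩, ⟨by linarith, by linarith⟩, ?_, Or.inl (by linarith)⟩
        rcases not_and_or.1 hm with h | h <;> push Not at h
        · exact Or.inl h
        · exact Or.inr h
    · by_cases hm : 4 * sz L ≤ -v ∧ -v < 7 * sz L
      · exact ⟨7 * sz L + v, ⟨by linarith, by linarith⟩, ⟨by linarith, by linarith⟩,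
          Or.inl (by linarith), Or.inr (by linarith)⟩
      · refine ⟨0, ⟨le_rfl, wid_pos L⟩, ⟨by linarith, by linarith⟩, Or.inl (by linarith), ?_⟩
        rcases not_and_or.1 hm with h | h <;> push Not at h
        · exact Or.inl (by linarith)
        · exact Or.inr (by linarith)
  refine (hP (q.1.1 + x, max q.1.2 r.1.2)).unique
    ⟨hq, Or.inl (core_of_out L ?_ ?_ ?_)⟩ ⟨hr, Or.inl (core_of_out L ?_ ?_ ?_)⟩
  · simpa using hx
  · simp only [Prod.snd_sub]
    rcases max_cases q.1.2 r.1.2 with ⟨e, hh⟩ | ⟨e, hh⟩ <;> rw [e] <;> constructor <;> linarith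
  · simpa using ho
  · simp only [Prod.fst_sub]; constructor <;> linarith [hx'.1, hx'.2]
  · simp only [Prod.snd_sub]
    rcases max_cases q.1.2 r.1.2 with ⟨e, hh⟩ | ⟨e, hh⟩ <;> rw [e] <;> constructor <;> linarith
  · simp only [Prod.fst_sub]; rcases ho' with h | h
    · exact Or.inl (by linarith)
    · exact Or.inr (by linarith)

include hP in
/-- a hole is filled by exactly the matching bump -/
lemma fill (q : (ℝ × ℝ) × ZMod L) (hq : q ∈ P) (c : ℝ) (K : ℕ)
    (hc : c = 4 * sz L ∨ c = 6 * sz L)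
    (hnot : ¬ Sq L q.2 (c, c))
    (hcore : ∀ y : ℝ × ℝ, |y.1 - c| < sz L → |y.2 - c| < sz L → ¬ CodeBox L (c, c) K y →
      Core L q.2 y) :
    ∃ r ∈ P, (K = (r.2 + 1).val ∧ r.1 + (wid L, 0) + (4 * sz L, 4 * sz L) = q.1 + (c, c)) ∨
      (K = L + r.2.val ∧ r.1 + (0, wid L) + (6 * sz L, 6 * sz L) = q.1 + (c, c)) := by
  have hs := sz_ge L
  have hw : wid L = 10 * sz L := rfl
  obtain ⟨r, ⟨hr, hrs⟩, -⟩ := hP (q.1 + (c, c))
  have hne : r ≠ q := by
    rintro rfl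
    rw [add_sub_cancel_left] at hrs
    exact hnot hrs
  refine ⟨r, hr, ?_⟩
  -- a bump of `r` through the corner of the hole lies in the hole
  have key : ∀ (o : ℝ × ℝ) (Q : ℝ) (K' : ℕ), (K' : ℝ) < 2 * (L : ℝ) →
      CodeBox L (Q, Q) K' (q.1 + (c, c) - r.1 - o) →
      (∀ y, CodeBox L (Q, Q) K' y → Sq L r.2 (y + o)) →
      K = K' ∧ r.1 + o + (Q, Q) = q.1 + (c, c) := by
    intro o Q K' hK' hin hsub
    obtain ⟨e, e'⟩ := sub_box L (P := (c, c)) (w := r.1 + o + (Q, Q) - q.1) (K := K) hK' (by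
      obtain ⟨⟨i1, i2⟩, i3, i4⟩ := hin
      simp only [Prod.fst_sub, Prod.snd_sub, Prod.fst_add, Prod.snd_add] at i1 i2 i3 i4
      refine ⟨⟨?_, ?_⟩, ?_, ?_⟩ <;>
        simp only [Prod.fst_sub, Prod.snd_sub, Prod.fst_add, Prod.snd_add] <;> linarith) (fun y hy => by
      by_contra hno
      obtain ⟨⟨y1, y2⟩, y3, y4⟩ := hy
      obtain ⟨⟨i1, i2⟩, i3, i4⟩ := hin
      simp only [Prod.fst_sub, Prod.snd_sub, Prod.fst_add, Prod.snd_add] at y1 y2 y3 y4 i1 i2 i3 i4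
      have hK0 := Nat.cast_nonneg (α := ℝ) K'
      have hcoreq : Core L q.2 y := by
        refine hcore y (abs_lt.2 ⟨?_, ?_⟩) (abs_lt.2 ⟨?_, ?_⟩) hno <;> unfold sz <;> linarith
      refine hne ((hP (q.1 + y)).unique ⟨hr, ?_⟩
        ⟨hq, Or.inl (by rw [add_sub_cancel_left]; exact hcoreq)⟩)
      have : q.1 + y - r.1 = (q.1 + y - r.1 - o) + o := by abel
      rw [this]
      refine hsub _ ⟨⟨?_, ?_⟩, ?_, ?_⟩ <;>
        simp only [Prod.fst_sub, Prod.snd_sub, Prod.fst_add, Prod.snd_add] <;> linarith)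
    exact ⟨e, by rw [← e']; abel⟩
  rcases hrs with hb | hb | hb
  · exfalso
    obtain ⟨⟨⟨a, b⟩, a', b'⟩, -⟩ := hb
    simp only [Prod.fst_sub, Prod.snd_sub, Prod.fst_add, Prod.snd_add] at a b a' b'
    exact hne (sq_near hP hq hr
      (abs_lt.2 ⟨by rcases hc with hc | hc <;> linarith, by rcases hc with hc | hc <;> linarith⟩)
      (abs_lt.2 ⟨by rcases hc with hc | hc <;> linarith,
        by rcases hc with hc | hc <;> linarith⟩)).symm
  · left
    exact key _ _ _ (by linarith [val_real L (r.2 + 1)]) hb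
      (fun y hy => Or.inr (Or.inl (by rw [add_sub_cancel_right]; exact hy)))
  · right
    exact key _ _ _ (by push_cast; linarith [val_real L r.2]) hb
      (fun y hy => Or.inr (Or.inr (by rw [add_sub_cancel_right]; exact hy)))

include hP in
lemma pred_x {q : (ℝ × ℝ) × ZMod L} (hq : q ∈ P) : (q.1 - (wid L, 0), q.2 - 1) ∈ P := by
  have hs := sz_ge L
  obtain ⟨r, hr, h⟩ := fill hP q hq (4 * sz L) q.2.val (Or.inl rfl)
    (by
      rintro (h | h | h)
      · exact h.2.1 (holeX_corner L _)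
      · have := (holeX_range L h).1.1
        simp only [Prod.fst_sub, wid] at this; linarith
      · have := (holeY_range L h).2.1
        simp only [Prod.snd_sub, wid] at this; linarith)
    (fun y h1 h2 hno => by
      obtain ⟨a, b⟩ := abs_lt.1 h1
      obtain ⟨a', b'⟩ := abs_lt.1 h2
      refine ⟨⟨⟨by linarith, by unfold wid; linarith⟩, by linarith, by unfold wid; linarith⟩, hno,
        fun hY => ?_⟩
      linarith [(holeY_range L hY).1.1])
  rcases h with ⟨e, e'⟩ | ⟨e, e'⟩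
  · have : r = (q.1 - (wid L, 0), q.2 - 1) := by
      refine Prod.ext ?_ (eq_sub_of_add_eq (ZMod.val_injective L e.symm))
      exact eq_sub_of_add_eq (add_right_cancel e')
    exact this ▸ hr
  · have := q.2.val_lt; omega

include hP in
lemma pred_y {q : (ℝ × ℝ) × ZMod L} (hq : q ∈ P) : (q.1 - (0, wid L), q.2) ∈ P := by
  have hs := sz_ge L
  obtain ⟨r, hr, h⟩ := fill hP q hq (6 * sz L) (L + q.2.val) (Or.inr rfl)
    (by
      rintro (h | h | h)
      · exact h.2.2 (holeY_corner L _)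
      · have := (holeX_range L h).1.1
        simp only [Prod.fst_sub, wid] at this; linarith
      · have := (holeY_range L h).2.1
        simp only [Prod.snd_sub, wid] at this; linarith)
    (fun y h1 h2 hno => by
      obtain ⟨a, b⟩ := abs_lt.1 h1
      obtain ⟨a', b'⟩ := abs_lt.1 h2
      refine ⟨⟨⟨by linarith, by unfold wid; linarith⟩, by linarith, by unfold wid; linarith⟩,
        fun hX => ?_, hno⟩
      linarith [(holeX_range L hX).1.2])
  rcases h with ⟨e, e'⟩ | ⟨e, e'⟩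
  · have := (r.2 + 1).val_lt; omega
  · have : r = (q.1 - (0, wid L), q.2) := by
      refine Prod.ext ?_ (ZMod.val_injective L (Nat.add_left_cancel e).symm)
      exact eq_sub_of_add_eq (add_right_cancel e')
    exact this ▸ hr

include hP in
lemma down {q : (ℝ × ℝ) × ZMod L} (hq : q ∈ P) (i j : ℕ) :
    (q.1 - gp L ((i : ℤ), (j : ℤ)), q.2 - (i : ZMod L)) ∈ P := by
  induction i with
  | zero =>
    induction j with
    | zero => convert hq using 1; ext <;> simp [gp]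
    | succ j ih =>
      convert pred_y hP ih using 1
      ext <;> simp [gp]
      ring
  | succ i ih =>
    convert pred_x hP ih using 1
    ext <;> simp [gp] <;> ring

include hP in
/-- An exact tiling by typed squares is a typed grid. -/
theorem grid :
    ∃ c : ℝ × ℝ, (∀ q ∈ P, ∃ m : ℤ × ℤ, q.1 = c + gp L m ∧ q.2 = (m.1 : ZMod L)) ∧
      ∀ m : ℤ × ℤ, (c + gp L m, (m.1 : ZMod L)) ∈ P := by
  obtain ⟨q, ⟨hq, -⟩, -⟩ := hP 0
  refine ⟨q.1 - gp L ((q.2.val : ℤ), 0), ?_⟩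
  have hw := wid_pos L
  have sub : ∀ r ∈ P, ∃ m : ℤ × ℤ, r.1 = q.1 - gp L ((q.2.val : ℤ), 0) + gp L m ∧
      r.2 = (m.1 : ZMod L) := by
    intro r hr
    obtain ⟨m1, hm1⟩ : ∃ m : ℤ, m = ⌊(r.1.1 - q.1.1) / wid L⌋ := ⟨_, rfl⟩
    obtain ⟨m2, hm2⟩ : ∃ m : ℤ, m = ⌊(r.1.2 - q.1.2) / wid L⌋ := ⟨_, rfl⟩
    have b1 : |(r.1.1 - q.1.1) - wid L * (m1 : ℝ)| < wid L := by
      rw [show r.1.1 - q.1.1 - wid L * (m1 : ℝ) = wid L * Int.fract ((r.1.1 - q.1.1) / wid L) by
        rw [hm1, Int.fract, mul_sub, mul_div_cancel₀ _ hw.ne']]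
      rw [abs_of_nonneg (mul_nonneg hw.le (Int.fract_nonneg _))]
      nlinarith [Int.fract_lt_one ((r.1.1 - q.1.1) / wid L)]
    have b2 : |(r.1.2 - q.1.2) - wid L * (m2 : ℝ)| < wid L := by
      rw [show r.1.2 - q.1.2 - wid L * (m2 : ℝ) = wid L * Int.fract ((r.1.2 - q.1.2) / wid L) by
        rw [hm2, Int.fract, mul_sub, mul_div_cancel₀ _ hw.ne']]
      rw [abs_of_nonneg (mul_nonneg hw.le (Int.fract_nonneg _))]
      nlinarith [Int.fract_lt_one ((r.1.2 - q.1.2) / wid L)]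
    have hc : ∀ m : ℤ, ((m.toNat : ℕ) : ℝ) - (((-m).toNat : ℕ) : ℝ) = (m : ℝ) := fun m => by
      have : (m.toNat : ℤ) - ((-m).toNat : ℤ) = m := by omega
      exact_mod_cast this
    have e := sq_near hP (down hP hq (-m1).toNat (-m2).toNat) (down hP hr m1.toNat m2.toNat)
      (by convert b1 using 2; simp only [gp, Prod.fst_sub, Int.cast_natCast]; rw [← hc m1]; ring)
      (by convert b2 using 2; simp only [gp, Prod.snd_sub, Int.cast_natCast]; rw [← hc m2]; ring)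
    obtain ⟨e1, e2⟩ := Prod.mk.inj e
    refine ⟨((q.2.val : ℤ) + m1, m2), Prod.ext ?_ ?_, ?_⟩
    · have := congrArg Prod.fst e1
      simp only [gp, Prod.fst_sub, Prod.fst_add, Int.cast_natCast, Int.cast_add] at this ⊢
      rw [← hc m1]; linarith
    · have := congrArg Prod.snd e1
      simp only [gp, Prod.snd_sub, Prod.snd_add, Int.cast_natCast, Int.cast_zero] at this ⊢
      rw [← hc m2]; linarith
    · have hz : ((m1.toNat : ℕ) : ZMod L) - (((-m1).toNat : ℕ) : ZMod L) = (m1 : ZMod L) := by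
        have : (m1.toNat : ℤ) - ((-m1).toNat : ℤ) = m1 := by omega
        have := congrArg (Int.cast : ℤ → ZMod L) this
        push_cast at this
        exact this
      push_cast
      rw [ZMod.natCast_zmod_val, ← hz]
      linear_combination -e2
  refine ⟨sub, fun m => ?_⟩
  obtain ⟨r, ⟨hr, hrs⟩, -⟩ := hP (q.1 - gp L ((q.2.val : ℤ), 0) + gp L m)
  obtain ⟨n, hn, hn'⟩ := sub r hr
  rw [hn, add_sub_add_left_eq_sub] at hrs
  suffices h : n = m by
    rw [← h, ← hn, ← hn']; exact hr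
  have hs := sz_ge L
  have hW : wid L = 10 * sz L := rfl
  -- a multiple of the side is never strictly inside the middle of a square
  have noInt : ∀ (k : ℤ) (v : ℝ), v = wid L * (k : ℝ) → 4 * sz L ≤ v → v < 7 * sz L → False := by
    intro k v hv h1 h2
    rcases le_or_gt k 0 with hk | hk
    · have : (k : ℝ) ≤ 0 := by exact_mod_cast hk
      nlinarith
    · have : (1 : ℝ) ≤ (k : ℝ) := by exact_mod_cast hk
      nlinarith
  have zeroInt : ∀ (k : ℤ), 0 ≤ wid L * (k : ℝ) → wid L * (k : ℝ) < wid L → k = 0 := by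
    intro k h1 h2
    have e1 : (0 : ℝ) ≤ (k : ℝ) := nonneg_of_mul_nonneg_right h1 hw
    have e2 : (k : ℝ) < 1 := by nlinarith
    have : 0 ≤ k := by exact_mod_cast e1
    have : k < 1 := by exact_mod_cast e2
    omega
  rcases hrs with h | h | h
  · obtain ⟨⟨⟨a, b⟩, a', b'⟩, -⟩ := h
    have e1 := zeroInt (m.1 - n.1) (by push_cast; simp [gp] at a; nlinarith)
      (by push_cast; simp [gp] at b; nlinarith)
    have e2 := zeroInt (m.2 - n.2) (by push_cast; simp [gp] at a'; nlinarith)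
      (by push_cast; simp [gp] at b'; nlinarith)
    ext <;> omega
  · obtain ⟨⟨a, b⟩, -⟩ := holeX_range L h
    exact (noInt (m.1 - n.1 - 1) _ (by simp [gp]; ring) a (by linarith)).elim
  · obtain ⟨-, a, b⟩ := holeY_range L h
    exact (noInt (m.2 - n.2 - 1) _ (by simp [gp]; ring) (by linarith) b).elim

omit hP

/-- The typed grid tiles the plane exactly. -/
theorem grid_exact (y : ℝ × ℝ) : ∃! m : ℤ × ℤ, Sq L (m.1 : ZMod L) (y - gp L m) := by
  have hw := wid_pos L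
  obtain ⟨f, hf⟩ : ∃ f : ℤ × ℤ, f = (⌊y.1 / wid L⌋, ⌊y.2 / wid L⌋) := ⟨_, rfl⟩
  have cell : ∀ v : ℝ, 0 ≤ v - wid L * (⌊v / wid L⌋ : ℝ) ∧
      v - wid L * (⌊v / wid L⌋ : ℝ) < wid L := by
    intro v
    have e : v - wid L * (⌊v / wid L⌋ : ℝ) = wid L * Int.fract (v / wid L) := by
      rw [Int.fract, mul_sub, mul_div_cancel₀ _ hw.ne']
    rw [e]
    exact ⟨mul_nonneg hw.le (Int.fract_nonneg _), by nlinarith [Int.fract_lt_one (v / wid L)]⟩
  have inC : ((0 ≤ (y - gp L f).1 ∧ (y - gp L f).1 < wid L) ∧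
      (0 ≤ (y - gp L f).2 ∧ (y - gp L f).2 < wid L)) := by
    subst hf; exact ⟨cell _, cell _⟩
  have step : ∀ m e : ℤ × ℤ, y - gp L m - gp L e = y - gp L (m + e) := fun m e => by
    rw [gp_add]; abel
  have eX : gp L (1, 0) = (wid L, 0) := by simp [gp]
  have eY : gp L (0, 1) = (0, wid L) := by simp [gp]
  have hs := sz_ge L
  have hW : wid L = 10 * sz L := rfl
  -- every way of covering `y` comes from the cell of `y`
  have classify : ∀ m : ℤ × ℤ, Sq L (m.1 : ZMod L) (y - gp L m) →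
      (m = f ∧ ¬ HoleX L (f.1 : ZMod L) (y - gp L f) ∧ ¬ HoleY L (f.1 : ZMod L) (y - gp L f)) ∨
      (m = f - (1, 0) ∧ HoleX L (f.1 : ZMod L) (y - gp L f)) ∨
      (m = f - (0, 1) ∧ HoleY L (f.1 : ZMod L) (y - gp L f)) := by
    have uniq : ∀ m : ℤ × ℤ, (0 ≤ (y - gp L m).1 ∧ (y - gp L m).1 < wid L) →
        (0 ≤ (y - gp L m).2 ∧ (y - gp L m).2 < wid L) → m = f := by
      intro m h1 h2
      have u : ∀ (v : ℝ) (k : ℤ), 0 ≤ v - wid L * (k : ℝ) → v - wid L * (k : ℝ) < wid L →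
          k = ⌊v / wid L⌋ := by
        intro v k a b
        symm
        rw [Int.floor_eq_iff, le_div_iff₀ hw, div_lt_iff₀ hw]
        constructor <;> nlinarith
      subst hf
      exact Prod.ext (u _ _ h1.1 h1.2) (u _ _ h2.1 h2.2)
    intro m hm
    rcases hm with ⟨⟨h1, h2⟩, hX, hY⟩ | h | h
    · have e := uniq m h1 h2
      subst e; exact Or.inl ⟨rfl, hX, hY⟩
    · rw [← eX, step] at h
      obtain ⟨⟨a, b⟩, a', b'⟩ := holeX_range L h
      have e := uniq (m + (1, 0)) ⟨by linarith, by linarith⟩ ⟨by linarith, by linarith⟩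
      refine Or.inr (Or.inl ⟨eq_sub_of_add_eq e, ?_⟩)
      rw [← e]; convert h using 1
      simp
    · rw [← eY, step] at h
      obtain ⟨⟨a, b⟩, a', b'⟩ := holeY_range L h
      have e := uniq (m + (0, 1)) ⟨by linarith, by linarith⟩ ⟨by linarith, by linarith⟩
      refine Or.inr (Or.inr ⟨eq_sub_of_add_eq e, ?_⟩)
      rw [← e]; convert h using 1
      simp
  have notBoth : HoleX L (f.1 : ZMod L) (y - gp L f) → HoleY L (f.1 : ZMod L) (y - gp L f) →
      False := fun h h' => by linarith [(holeX_range L h).1.2, (holeY_range L h').1.1]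
  refine existsUnique_of_exists_of_unique ?_ ?_
  · by_cases hX : HoleX L (f.1 : ZMod L) (y - gp L f)
    · refine ⟨f - (1, 0), Or.inr (Or.inl ?_)⟩
      rw [← eX, step, sub_add_cancel]
      simpa using hX
    by_cases hY : HoleY L (f.1 : ZMod L) (y - gp L f)
    · refine ⟨f - (0, 1), Or.inr (Or.inr ?_)⟩
      rw [← eY, step, sub_add_cancel]
      simpa using hY
    exact ⟨f, Or.inl ⟨inC, hX, hY⟩⟩
  · intro m n hm hn
    rcases classify m hm with ⟨rfl, a, a'⟩ | ⟨rfl, a⟩ | ⟨rfl, a⟩ <;>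
      rcases classify n hn with ⟨rfl, b, b'⟩ | ⟨rfl, b⟩ | ⟨rfl, b⟩ <;>
      first | rfl | (exfalso; tauto)

end Vale.Agent.P043.R3
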