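import Mathlib
import Vale.Agent.P043.R3.Defs
import Vale.Agent.P043.R3.Square
import Vale.Agent.P043.R3.Stable

/-!
P043, dimension three: one bounded measurable tile of `ℝ³` from a finite system of translational
equations on `ℤ × ℤ × ℝ`.

The tile has, for each equation `l` and piece `p`, a typed square at the grid point
`(L * p.k + l, p.u)` times the interval `[p.lo, p.hi)`.
-/

namespace Vale.Agent.P043.R3

open MeasureTheory Set

variable {L : ℕ} [NeZero L]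

/-- the horizontal part -/
def pr (x : Fin 3 → ℝ) : ℝ × ℝ := (x 0, x 1)

/-- the grid index of a piece -/
def idx (l : Fin L) (p : Pc) : ℤ × ℤ := ((L : ℤ) * p.k + ((l : ℕ) : ℤ), p.u)

/-- the piece `p` of the equation `l`, translated by `a`, contains `x` -/
def InPc (l : Fin L) (p : Pc) (a x : Fin 3 → ℝ) : Prop :=
  Sq L ((idx l p).1 : ZMod L) (pr x - pr a - gp L (idx l p)) ∧ a 2 + p.lo ≤ x 2 ∧ x 2 < a 2 + p.hi

variable (E : Fin L → List Pc)

/-- the translate by `a` of the tile -/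
def tile (a : Fin 3 → ℝ) : Set (Fin 3 → ℝ) := {x | ∃ l, ∃ p ∈ E l, InPc l p a x}

/-- the point over `b`, with horizontal offset `c` -/
def emb (L : ℕ) (c : ℝ × ℝ) (b : P3) : Fin 3 → ℝ :=
  ![c.1 + wid L * (((L : ℤ) * b.1 : ℤ) : ℝ), c.2 + wid L * (b.2.1 : ℝ), b.2.2]

omit [NeZero L] in
lemma pr_emb (c : ℝ × ℝ) (b : P3) : pr (emb L c b) = c + gp L ((L : ℤ) * b.1, b.2.1) := by
  ext <;> simp [pr, emb, gp]

omit [NeZero L] in
lemma tile_eq_image (a : Fin 3 → ℝ) : (fun y => y + a) '' tile E 0 = tile E a := by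
  ext x
  have e : ∀ y : Fin 3 → ℝ, pr (y + a) - pr a = pr y - pr 0 := fun y => by ext <;> simp [pr]
  constructor
  · rintro ⟨y, ⟨l, p, hp, h1, h2, h3⟩, rfl⟩
    refine ⟨l, p, hp, by rwa [e], ?_, ?_⟩ <;> simp only [Pi.add_apply, Pi.zero_apply] at * <;>
      linarith
  · rintro ⟨l, p, hp, h1, h2, h3⟩
    refine ⟨x - a, ⟨l, p, hp, ?_, ?_, ?_⟩, sub_add_cancel x a⟩
    · rw [← e, sub_add_cancel]; exact h1
    · simp only [Pi.sub_apply, Pi.zero_apply]; linarith
    · simp only [Pi.sub_apply, Pi.zero_apply]; linarith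

omit [NeZero L] in
lemma idx_cast (l : Fin L) (p : Pc) : ((idx l p).1 : ZMod L) = ((l : ℕ) : ZMod L) := by
  simp [idx]

omit [NeZero L] in
lemma fin_cast_inj {l l' : Fin L} (h : ((l : ℕ) : ZMod L) = ((l' : ℕ) : ZMod L)) : l = l' := by
  rw [ZMod.natCast_eq_natCast_iff'] at h
  rw [Nat.mod_eq_of_lt l.isLt, Nat.mod_eq_of_lt l'.isLt] at h
  exact Fin.ext h

lemma lin_inj {n n' : ℤ} {l l' : Fin L}
    (h : (L : ℤ) * n + ((l : ℕ) : ℤ) = (L : ℤ) * n' + ((l' : ℕ) : ℤ)) : n = n' ∧ l = l' := by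
  have e : l = l' := fin_cast_inj (L := L) (by
    have := congrArg (Int.cast : ℤ → ZMod L) h
    simpa using this)
  subst e
  exact ⟨mul_left_cancel₀ (by exact_mod_cast NeZero.ne L) (add_right_cancel h), rfl⟩

omit [NeZero L] in
lemma nice_codeBox (c w : ℝ × ℝ) (K : ℕ) :
    Nice fun x : Fin 3 → ℝ => CodeBox L w K (pr x - c) :=
  (((nice_le 0 (w.1 + c.1)).and (nice_lt 0 (w.1 + ((K : ℝ) + 1) + c.1))).and
    ((nice_le 1 (w.2 + c.2)).and (nice_lt 1 (w.2 + (2 * (L : ℝ) - (K : ℝ)) + c.2)))).congr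
    fun x => by simp [CodeBox, pr, le_sub_iff_add_le, sub_lt_iff_lt_add]

omit [NeZero L] in
lemma nice_inPc (l : Fin L) (p : Pc) (a : Fin 3 → ℝ) : Nice (InPc l p a) := by
  obtain ⟨c, hc⟩ : ∃ c, c = pr a + gp L (idx l p) := ⟨_, rfl⟩
  have e : ∀ x, pr x - pr a - gp L (idx l p) = pr x - c := fun x => by rw [hc, sub_sub]
  have core : Nice fun x : Fin 3 → ℝ => (0 ≤ (pr x - c).1 ∧ (pr x - c).1 < wid L) ∧
      (0 ≤ (pr x - c).2 ∧ (pr x - c).2 < wid L) :=
    (((nice_le 0 c.1).and (nice_lt 0 (wid L + c.1))).and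
      ((nice_le 1 c.2).and (nice_lt 1 (wid L + c.2)))).congr
      fun x => by simp [pr, sub_lt_iff_lt_add]
  obtain ⟨τ, hτ⟩ : ∃ τ : ZMod L, τ = ((idx l p).1 : ZMod L) := ⟨_, rfl⟩
  have bX := fun (σ : ZMod L) (o : ℝ × ℝ) => nice_codeBox (L := L) o (4 * sz L, 4 * sz L) σ.val
  have bY := fun (σ : ZMod L) (o : ℝ × ℝ) =>
    nice_codeBox (L := L) o (6 * sz L, 6 * sz L) (L + σ.val)
  refine ((((core.and ((bX τ c).not.and (bY τ c).not)).or
    ((bX (τ + 1) (c + (wid L, 0))).or (bY τ (c + (0, wid L))))).and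
    ((nice_le 2 (a 2 + p.lo)).and (nice_lt 2 (a 2 + p.hi))))).congr fun x => ?_
  subst hτ
  simp only [InPc, e, Sq, Core, HoleX, HoleY, ← sub_sub]

omit [NeZero L] in
lemma nice_tile (a : Fin 3 → ℝ) : Nice fun x => x ∈ tile E a := by
  haveI : ∀ l, Finite {p // p ∈ E l} := fun l => (List.finite_toSet (E l)).to_subtype
  refine (Nice.exists fun l => Nice.exists fun p : {p // p ∈ E l} => nice_inPc l p.1 a).congr
    fun x => ?_
  simp [tile]

variable {E}

lemma inPc_unique {l₁ : Fin L} (hfit : Fits E l₁) {l l' : Fin L} {p p' : Pc} (hp : p ∈ E l)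
    (hp' : p' ∈ E l') {a x : Fin 3 → ℝ} (h : InPc l p a x) (h' : InPc l' p' a x) :
    l = l' ∧ p = p' := by
  have e := (grid_exact (L := L) (pr x - pr a)).unique h.1 h'.1
  simp only [idx, Prod.mk.injEq] at e
  obtain ⟨hk, rfl⟩ := lin_inj e.1
  refine ⟨rfl, ?_⟩
  by_contra hne
  rcases hfit.2.1 l p hp p' hp' hne hk e.2 with h0 | h0 <;> linarith [h.2.1, h.2.2, h'.2.1, h'.2.2]

lemma tile_bound {l₁ : Fin L} (hfit : Fits E l₁) :
    ∃ R : ℝ, ∀ a, ∀ x ∈ tile E a, ‖x - a‖ ≤ R := by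
  classical
  have hb : BddAbove (Set.range fun q : Σ l : Fin L, {p // p ∈ E l} =>
      |(gp L (idx q.1 q.2.1)).1| + |(gp L (idx q.1 q.2.1)).2|) := by
    haveI : ∀ l, Finite {p // p ∈ E l} := fun l => (List.finite_toSet (E l)).to_subtype
    exact (Set.finite_range _).bddAbove
  obtain ⟨M, hM⟩ := hb
  refine ⟨max M 0 + 2 * wid L + 2, fun a x ⟨l, p, hp, h1, h2, h3⟩ => ?_⟩
  have hM' : |(gp L (idx l p)).1| + |(gp L (idx l p)).2| ≤ M := hM ⟨⟨l, ⟨p, hp⟩⟩, rfl⟩
  obtain ⟨f0, f1, f2⟩ := hfit.1 l p hp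
  obtain ⟨⟨s1, s2⟩, s3, s4⟩ := sq_bound L h1
  simp only [Prod.fst_sub, Prod.snd_sub, pr] at s1 s2 s3 s4
  have := wid_pos L
  have := le_max_left M 0
  have := le_max_right M 0
  have := abs_nonneg (gp L (idx l p)).1
  have := abs_nonneg (gp L (idx l p)).2
  have := le_abs_self (gp L (idx l p)).1
  have := le_abs_self (gp L (idx l p)).2
  have := neg_abs_le (gp L (idx l p)).1
  have := neg_abs_le (gp L (idx l p)).2
  refine (pi_norm_le_iff_of_nonneg (by linarith)).2 fun i => ?_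
  rw [Real.norm_eq_abs, abs_le]
  fin_cases i <;> simp only [Pi.sub_apply] <;> constructor <;> simp <;> linarith

lemma tile_volume {l₁ : Fin L} (hfit : Fits E l₁) (a : Fin 3 → ℝ) :
    volume (tile E a) = volume (tile E 0) ∧ 0 < volume (tile E 0) := by
  constructor
  · rw [← tile_eq_image E a, Set.image_add_right, measure_preimage_add_right]
  · obtain ⟨p, hp, -, -⟩ := hfit.2.2.1 0 le_rfl (by norm_num)
    obtain ⟨f0, f1, f2⟩ := hfit.1 0 p hp
    have hs := sz_ge L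
    obtain ⟨g, hg⟩ : ∃ g, g = gp L (idx (0 : Fin L) p) := ⟨_, rfl⟩
    refine lt_of_lt_of_le ?_ (measure_mono (s := Set.pi univ fun i =>
      Ico (![g.1, g.2, p.lo] i) (![g.1 + sz L, g.2 + sz L, p.hi] i)) fun x hx => ?_)
    · rw [Real.volume_pi_Ico, pos_iff_ne_zero]
      refine Finset.prod_ne_zero_iff.2 fun i _ => ?_
      fin_cases i <;> simp <;> linarith
    · obtain ⟨a0, b0⟩ := hx 0 (mem_univ _)
      obtain ⟨a1, b1⟩ := hx 1 (mem_univ _)
      obtain ⟨a2, b2⟩ := hx 2 (mem_univ _)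
      simp at a0 b0 a1 b1 a2 b2
      refine ⟨0, p, hp, Or.inl (core_of_out L ?_ ?_ ?_), by simpa using a2, by simpa using b2⟩
      all_goals simp only [Prod.fst_sub, Prod.snd_sub, pr, Pi.zero_apply, ← hg, wid, sub_zero]
      · constructor <;> linarith
      · constructor <;> linarith
      · left; linarith

section Slices

variable (E) in
/-- the squares met by the plane at height `z` -/
def slice (A : Set (Fin 3 → ℝ)) (z : ℝ) : Set ((ℝ × ℝ) × ZMod L) :=
  {q | ∃ a ∈ A, ∃ l, ∃ p ∈ E l, q = (pr a + gp L (idx l p), ((idx l p).1 : ZMod L)) ∧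
    a 2 + p.lo ≤ z ∧ z < a 2 + p.hi}

variable {l₁ : Fin L} (hfit : Fits E l₁) {A : Set (Fin 3 → ℝ)}
  (hA : ∀ x, ∃! a, a ∈ A ∧ x ∈ tile E a)

include hfit hA in
lemma slice_exact (z : ℝ) : ExactSq L (slice E A z) := by
  intro y
  obtain ⟨a, ⟨ha, l, p, hp, hx⟩, hu⟩ := hA ![y.1, y.2, z]
  have e : ∀ b : Fin 3 → ℝ, ∀ m, pr ![y.1, y.2, z] - pr b - gp L m = y - (pr b + gp L m) := by
    intro b m; rw [sub_sub]; rfl
  refine ⟨(pr a + gp L (idx l p), ((idx l p).1 : ZMod L)),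
    ⟨⟨a, ha, l, p, hp, rfl, hx.2⟩, ?_⟩, ?_⟩
  · rw [← e]; exact hx.1
  · rintro q ⟨⟨b, hb, l', p', hp', rfl, h2⟩, hs⟩
    have hin : InPc l' p' b ![y.1, y.2, z] := ⟨by rw [e]; exact hs, h2⟩
    have := hu b ⟨hb, l', p', hp', hin⟩
    subst this
    obtain ⟨rfl, rfl⟩ := inPc_unique hfit hp' hp hin hx
    rfl

/-- points congruent to `c` modulo the period lattice of the types -/
def cls (L : ℕ) (c : ℝ × ℝ) : Set (ℝ × ℝ) := {d | ∃ n v : ℤ, d = c + gp L ((L : ℤ) * n, v)}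

omit [NeZero L] in
lemma cls_eq {c d : ℝ × ℝ} (h : d ∈ cls L c) : cls L d = cls L c := by
  obtain ⟨n, v, rfl⟩ := h
  refine Set.ext fun e => ⟨?_, ?_⟩
  · rintro ⟨i, j, rfl⟩
    exact ⟨n + i, v + j, by ext <;> simp [gp] <;> ring⟩
  · rintro ⟨i, j, rfl⟩
    exact ⟨i - n, j - v, by ext <;> simp [gp] <;> ring⟩

include hfit hA in
/-- All translations are congruent modulo the period lattice, and the grid is full. -/
lemma common_phase :
    ∃ c : ℝ × ℝ, (∀ a ∈ A, pr a ∈ cls L c) ∧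
      ∀ z : ℝ, ∀ m : ℤ × ℤ, (c + gp L m, (m.1 : ZMod L)) ∈ slice E A z := by
  choose c hc hfull using fun z => grid (slice_exact hfit hA z)
  have live : ∀ z, ∀ a ∈ A, a 2 ≤ z → z < a 2 + 2 → cls L (c z) = cls L (pr a) := by
    intro z a ha h1 h2
    obtain ⟨p, hp, h3, h4⟩ := hfit.2.2.1 (z - a 2) (by linarith) (by linarith)
    obtain ⟨m, hm, hm'⟩ := hc z _
      ⟨a, ha, 0, p, hp, rfl, by linarith, by linarith⟩
    simp only at hm hm'
    rw [idx_cast, Fin.val_zero, Nat.cast_zero, eq_comm, ZMod.intCast_zmod_eq_zero_iff_dvd] at hm'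
    obtain ⟨k, hk⟩ := hm'
    refine (cls_eq (c := c z) ⟨k - p.k, m.2 - p.u, ?_⟩).symm
    rw [eq_sub_of_add_eq hm]
    ext <;> simp [gp, idx, hk] <;> ring
  have loc : IsLocallyConstant fun z => cls L (c z) := by
    refine (IsLocallyConstant.iff_exists_open _).2 fun z => ?_
    obtain ⟨a, ha, l, p, hp, hq, h1, h2⟩ := hfull z (((l₁ : ℕ) : ℤ), 0)
    have hl : l = l₁ := fin_cast_inj (L := L) (by
      have := congrArg Prod.snd hq
      simpa [idx] using this.symm)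
    subst hl
    obtain ⟨f0, f1, f2⟩ := hfit.1 _ p hp
    rw [hfit.2.2.2 p hp] at h1
    refine ⟨Ioo (a 2) (a 2 + 2), isOpen_Ioo, ⟨by linarith, by linarith⟩, fun z' hz' => ?_⟩
    rw [live z' a ha hz'.1.le hz'.2, live z a ha (by linarith) (by linarith)]
  refine ⟨c 0, fun a ha => ?_, fun z m => ?_⟩
  · have h := live (a 2) a ha le_rfl (by linarith)
    rw [loc.apply_eq_of_preconnectedSpace (a 2) 0] at h
    rw [h]; exact ⟨0, 0, by simp [gp]⟩
  · have h : c 0 ∈ cls L (c z) := by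
      rw [loc.apply_eq_of_preconnectedSpace z 0]; exact ⟨0, 0, by simp [gp]⟩
    obtain ⟨n, v, e⟩ := h
    have := hfull z (((L : ℤ) * n, v) + m)
    rw [gp_add, ← add_assoc, ← e] at this
    simpa using this

include hfit hA in
/-- An exact tiling of space comes from a solution of the system. -/
lemma sol_of_exact :
    ∃ c : ℝ × ℝ, (∀ a ∈ A, ∃ b, a = emb L c b) ∧
      ∀ l, Sol (E l) {b | emb L c b ∈ A} := by
  obtain ⟨c, hcls, hfull⟩ := common_phase hfit hA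
  have hcoord : ∀ a ∈ A, ∃ b, a = emb L c b := by
    intro a ha
    obtain ⟨n, v, e⟩ := hcls a ha
    refine ⟨(n, v, a 2), ?_⟩
    have e0 := congrArg Prod.fst e
    have e1 := congrArg Prod.snd e
    simp [pr, gp] at e0 e1
    funext i; fin_cases i <;> simp [emb, e0, e1]
  refine ⟨c, hcoord, fun l x => ?_⟩
  obtain ⟨n, v, z⟩ := x
  obtain ⟨a, ha, l', p, hp, hq, h1, h2⟩ := hfull z ((L : ℤ) * n + ((l : ℕ) : ℤ), v)
  obtain ⟨⟨i, j, g⟩, rfl⟩ := hcoord a ha
  simp only [pr_emb, Prod.mk.injEq] at hq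
  have e := hq.1
  rw [add_assoc, ← gp_add, add_left_cancel_iff] at e
  have hgp : Function.Injective (gp L) := fun u w h => by
    have := wid_pos L
    simp only [gp, Prod.mk.injEq, mul_right_inj' this.ne', Int.cast_inj] at h
    exact Prod.ext h.1 h.2
  have e' := hgp e
  simp only [idx, Prod.mk_add_mk, Prod.mk.injEq] at e'
  obtain ⟨hn, rfl⟩ := lin_inj (L := L) (n := n) (n' := i + p.k) (l := l) (l' := l')
    (by rw [e'.1]; ring)
  have h1' : g + p.lo ≤ z := by simpa [emb] using h1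
  have h2' : z < g + p.hi := by simpa [emb] using h2
  refine ⟨(p, (i, j, g)), ⟨hp, ha, hn.symm, e'.2.symm, h1', h2'⟩, ?_⟩
  rintro ⟨p', i', j', g'⟩ ⟨hp', hb', hn', hv', h1'', h2''⟩
  simp only at hn' hv' h1'' h2''
  -- both cover the same point
  obtain ⟨y, hy⟩ : ∃ y : Fin 3 → ℝ, y = ![(c + gp L ((L : ℤ) * n + ((l : ℕ) : ℤ), v)).1,
      (c + gp L ((L : ℤ) * n + ((l : ℕ) : ℤ), v)).2, z] := ⟨_, rfl⟩
  have zero : ∀ τ : ZMod L, Sq L τ (0 : ℝ × ℝ) := fun τ => by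
    have := wid_pos L
    have := sz_ge L
    exact Or.inl (core_of_out L ⟨le_rfl, by simpa⟩ ⟨le_rfl, by simpa⟩ (Or.inl (by simp; linarith)))
  have hit : ∀ (q : Pc) (b : P3), b.1 + q.k = n → b.2.1 + q.u = v → b.2.2 + q.lo ≤ z →
      z < b.2.2 + q.hi → InPc l q (emb L c b) y := by
    intro q b h1 h2 h3 h4
    refine ⟨?_, by simpa [emb, hy] using h3, by simpa [emb, hy] using h4⟩
    convert zero _ using 1
    subst hy h1 h2
    ext <;> simp [pr, emb, gp, idx] <;> ring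
  have hp1 := hit p (i, j, g) hn.symm e'.2.symm h1' h2'
  have hp2 := hit p' (i', j', g') hn' hv' h1'' h2''
  have eab := (hA y).unique ⟨hb', l, p', hp', hp2⟩ ⟨ha, l, p, hp, hp1⟩
  rw [eab] at hp2
  obtain ⟨-, rfl⟩ := inPc_unique hfit hp' hp hp2 hp1
  have e2 := congrFun eab 2
  simp [emb] at e2
  subst e2
  dsimp only at *
  have a1 : i' = i := by omega
  have a2 : j' = j := by omega
  subst a1 a2
  rfl

end Slices

/-- A solution of the system gives an exact tiling. -/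
lemma exact_of_sol {B : Set P3} (hB : ∀ l, Sol (E l) B)
    (x : Fin 3 → ℝ) : ∃! a, a ∈ emb L 0 '' B ∧ x ∈ tile E a := by
  obtain ⟨m, hm, hu⟩ := grid_exact (L := L) (pr x)
  obtain ⟨n, l, hnl⟩ : ∃ (n : ℤ) (l : Fin L), m.1 = (L : ℤ) * n + ((l : ℕ) : ℤ) := by
    have hL : (L : ℤ) ≠ 0 := by exact_mod_cast NeZero.ne L
    have h1 := Int.emod_nonneg m.1 hL
    have h2 := Int.emod_lt_of_pos m.1 (lt_of_le_of_ne (Int.natCast_nonneg L) hL.symm)
    refine ⟨m.1 / (L : ℤ), ⟨(m.1 % (L : ℤ)).toNat, by omega⟩, ?_⟩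
    simp only [Int.toNat_of_nonneg h1]
    rw [Int.mul_ediv_add_emod]
  obtain ⟨⟨p, b⟩, ⟨hp, hb, h1, h2, h3, h4⟩, hu'⟩ := hB l (n, m.2, x 2)
  simp only at h1 h2 h3 h4
  have key : ∀ (b : P3) (l' : Fin L) (q : Pc),
      pr x - pr (emb L 0 b) - gp L (idx l' q)
        = pr x - gp L ((L : ℤ) * (b.1 + q.k) + ((l' : ℕ) : ℤ), b.2.1 + q.u) := by
    intro b l' q
    rw [pr_emb, zero_add, sub_sub, ← gp_add, idx, Prod.mk_add_mk]
    congr 3
    ring
  refine ⟨emb L 0 b, ⟨mem_image_of_mem _ hb, l, p, hp, ?_, ?_, ?_⟩, ?_⟩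
  · rw [key, idx_cast, h1, h2, ← hnl, Prod.mk.eta]
    convert hm using 1
    rw [hnl]; simp
  · simpa [emb] using h3
  · simpa [emb] using h4
  · rintro _ ⟨⟨b', hb', rfl⟩, l', p', hp', s1, s2, s3⟩
    rw [key, idx_cast] at s1
    have := hu ((L : ℤ) * (b'.1 + p'.k) + ((l' : ℕ) : ℤ), b'.2.1 + p'.u) (by simpa using s1)
    have e1 := congrArg Prod.fst this
    have e2 := congrArg Prod.snd this
    simp only [hnl] at e1
    obtain ⟨hk, rfl⟩ := lin_inj e1
    have := hu' (p', b') ⟨hp', hb', hk, e2, by simpa [emb] using s2, by simpa [emb] using s3⟩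
    rw [Prod.mk.injEq] at this
    rw [this.2]

/-- **Lifting.** A system with a solution, all whose periods are horizontal in the first
coordinate, gives a bounded measurable tile of `ℝ³` without periodic tilings. -/
theorem lift {l₁ : Fin L} (hfit : Fits E l₁) (hsol : ∃ B : Set P3, ∀ l, Sol (E l) B)
    (hper : ∀ B : Set P3, (∀ l, Sol (E l) B) → ∀ h : P3, (∀ a, a + h ∈ B ↔ a ∈ B) → h.1 = 0) :
    ∃ Ω : Set (Fin 3 → ℝ), MeasurableSet Ω ∧ Bornology.IsBounded Ω ∧ 0 < volume Ω ∧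
      (∃ A : Set (Fin 3 → ℝ), A.Countable ∧
        volume (⋃ a ∈ A, (fun y => y + a) '' Ω)ᶜ = 0 ∧
        A.Pairwise fun a b => volume ((fun y => y + a) '' Ω ∩ (fun y => y + b) '' Ω) = 0) ∧
      ∀ A : Set (Fin 3 → ℝ),
        volume (⋃ a ∈ A, (fun y => y + a) '' Ω)ᶜ = 0 →
        (A.Pairwise fun a b => volume ((fun y => y + a) '' Ω ∩ (fun y => y + b) '' Ω) = 0) →
        ¬∃ v : Fin 3 → Fin 3 → ℝ, LinearIndependent ℝ v ∧
          ∀ i, ∀ a, a + v i ∈ A ↔ a ∈ A := by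
  obtain ⟨R, hR⟩ := tile_bound hfit
  have hV : volume (tile E 0) ≠ 0 := (tile_volume hfit 0).2.ne'
  have hvol : ∀ a : Fin 3 → ℝ, volume (tile E 0) ≤ volume (tile E a) := fun a =>
    ((tile_volume hfit a).1).ge
  refine ⟨tile E 0, (nice_tile E 0).2, ?_, (tile_volume hfit 0).2, ?_, ?_⟩
  · refine (Metric.isBounded_closedBall (x := (0 : Fin 3 → ℝ)) (r := R)).subset fun x hx => ?_
    rw [Metric.mem_closedBall, dist_eq_norm]; exact hR 0 x hx
  · obtain ⟨B, hB⟩ := hsol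
    have h := exact_of_sol hB
    have hdis : (emb L 0 '' B).Pairwise fun a b => volume (tile E a ∩ tile E b) = 0 := by
      intro a ha b hb hne
      refine measure_mono_null (fun x hx => ?_) measure_empty
      exact hne ((h x).unique ⟨ha, hx.1⟩ ⟨hb, hx.2⟩)
    simp only [tile_eq_image]
    refine ⟨emb L 0 '' B, countable_of_near (fun r =>
      near_finite hV (fun a _ => (nice_tile E a).2) (fun a _ => hvol a) hR hdis 0 r), ?_, hdis⟩
    refine measure_mono_null (fun x hx => ?_) measure_empty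
    obtain ⟨a, ⟨ha, hxa⟩, -⟩ := h x
    exact hx (mem_iUnion₂.2 ⟨a, ha, hxa⟩)
  · intro A hcov hdis
    simp only [tile_eq_image] at hcov hdis
    rintro ⟨v, hli, hv⟩
    have hA := exact_of_ae hV (nice_tile E) (fun a _ => hvol a) hR hcov hdis
    obtain ⟨c, hcoord, hS⟩ := sol_of_exact hfit hA
    obtain ⟨a₀, ⟨ha₀, -⟩, -⟩ := hA 0
    obtain ⟨b₀, rfl⟩ := hcoord a₀ ha₀
    have zero : ∀ i, v i 0 = 0 := by
      intro i
      obtain ⟨b₁, hb₁⟩ := hcoord _ ((hv i _).2 ha₀)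
      obtain ⟨h, hh⟩ : ∃ h, h = b₁ - b₀ := ⟨_, rfl⟩
      have hvi : ∀ b : P3, emb L c (b + h) = emb L c b + v i := by
        intro b
        have e := eq_sub_of_add_eq' hb₁
        subst hh
        rw [e]
        funext k; fin_cases k <;> simp [emb] <;> ring
      have h0 := hper _ hS h fun b => by
        show emb L c (b + h) ∈ A ↔ emb L c b ∈ A
        rw [hvi]; exact hv i _
      have := congrFun (hvi b₀) 0
      simp [emb, h0] at this
      exact this
    have htop : Submodule.span ℝ (Set.range v) = ⊤ :=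
      hli.span_eq_top_of_card_eq_finrank (by simp)
    have hle : Submodule.span ℝ (Set.range v) ≤
        LinearMap.ker (LinearMap.proj 0 : (Fin 3 → ℝ) →ₗ[ℝ] ℝ) := by
      rw [Submodule.span_le]
      rintro _ ⟨i, rfl⟩
      exact zero i
    rw [htop] at hle
    have := hle (x := Pi.single 0 1) Submodule.mem_top
    simp at this

end Vale.Agent.P043.R3
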