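import Vale.Agent.P043.R3.Finite

/-!
P043, dimension three: the slope equation leaves no period along the first axis.
-/

namespace Vale.Agent.P043.R3

lemma slope_len : ∀ p ∈ slopeDat.map Dat.pc, p.hi ≤ p.lo + 1 := by
  have := dlt_pos
  have := dlt_small
  intro p hp
  simp [slopeDat, Dat.pc] at hp
  rcases hp with rfl | rfl | rfl | rfl | rfl | rfl | rfl | rfl | rfl | rfl | rfl | rfl | rfl |
    rfl <;> simp only <;> linarith

/-- The three-piece bands. -/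
lemma band {B : Set P3} {g : ℤ → ZMod 4 → ℝ} {r w₀ : ℤ}
    (hR : Rep B (fun n v => sq ((n : ZMod 4) - (r : ZMod 4)) (v - (w₀ : ZMod 4))) g)
    (hs : Sol (slopeDat.map Dat.pc) B) (i c : ℤ) {d₁ d₂ d₃ : Dat}
    (hf : (slopeDat.filter fun d => sq ((i - d.k : ℤ) : ZMod 4) ((c - d.u : ℤ) : ZMod 4))
      = [d₁, d₂, d₃])
    (h12 : d₁.k ≠ d₂.k) (h13 : d₁.k ≠ d₃.k) (h23 : d₂.k ≠ d₃.k)
    (j : ℤ) {s₁ s₂ s₃ l₁ l₂ l₃ : ℝ}
    (e₁ : s₁ = g (r + 4 * j + i - d₁.k) ((w₀ + c - d₁.u : ℤ) : ZMod 4) + d₁.pc.lo)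
    (e₂ : s₂ = g (r + 4 * j + i - d₂.k) ((w₀ + c - d₂.u : ℤ) : ZMod 4) + d₂.pc.lo)
    (e₃ : s₃ = g (r + 4 * j + i - d₃.k) ((w₀ + c - d₃.u : ℤ) : ZMod 4) + d₃.pc.lo)
    (f₁ : l₁ = d₁.pc.hi - d₁.pc.lo) (f₂ : l₂ = d₂.pc.hi - d₂.pc.lo)
    (f₃ : l₃ = d₃.pc.hi - d₃.pc.lo)
    (p₁ : 0 < l₁) (p₂ : 0 < l₂) (p₃ : 0 < l₃) (hsum : l₁ + l₂ + l₃ = 1) :
    (Cg s₂ (s₁ + l₁) ∧ Cg s₃ (s₂ + l₂)) ∨ (Cg s₃ (s₁ + l₁) ∧ Cg s₂ (s₃ + l₃)) := by
  set n := r + 4 * j + i with hn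
  set v := w₀ + c with hv
  have four : (4 : ZMod 4) = 0 := rfl
  have hO : ∀ d : Dat, sq (((n - d.k : ℤ) : ZMod 4) - (r : ZMod 4))
      (((v - d.u : ℤ) : ZMod 4) - (w₀ : ZMod 4)) =
      sq ((i - d.k : ℤ) : ZMod 4) ((c - d.u : ℤ) : ZMod 4) := by
    intro d
    congr 1 <;> simp [hn, hv, four] <;> ring
  have hmem : ∀ d : Dat, d ∈ [d₁, d₂, d₃] ↔
      d ∈ slopeDat ∧ sq ((i - d.k : ℤ) : ZMod 4) ((c - d.u : ℤ) : ZMod 4) = true := by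
    intro d; rw [← hf, List.mem_filter]
  set Q : Dat → ℝ → Prop := fun d z =>
    Arc (g (n - d.k) ((v - d.u : ℤ) : ZMod 4) + d.pc.lo) (d.pc.hi - d.pc.lo) z
  have key : ∀ z, ∃! p, p ∈ slopeDat.map Dat.pc ∧
      Act (fun n v => sq ((n : ZMod 4) - (r : ZMod 4)) (v - (w₀ : ZMod 4))) g n v z p :=
    fun z => (sol_iff hR slope_len).1 hs n v z
  have act : ∀ d ∈ [d₁, d₂, d₃], ∀ z, Q d z → d.pc ∈ slopeDat.map Dat.pc ∧
      Act (fun n v => sq ((n : ZMod 4) - (r : ZMod 4)) (v - (w₀ : ZMod 4))) g n v z d.pc :=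
    fun d hd z hz => ⟨List.mem_map_of_mem ((hmem d).1 hd).1,
      (hO d).trans ((hmem d).1 hd).2, hz⟩
  have disj : ∀ d ∈ [d₁, d₂, d₃], ∀ d' ∈ [d₁, d₂, d₃], d.k ≠ d'.k →
      ∀ z, ¬ (Q d z ∧ Q d' z) := by
    intro d hd d' hd' hne z hz
    exact hne (congrArg Pc.k ((key z).unique (act d hd z hz.1) (act d' hd' z hz.2)))
  subst e₁ e₂ e₃ f₁ f₂ f₃
  refine three_arcs p₁ p₂ p₃ hsum (fun z => ?_) (disj _ (by simp) _ (by simp) h12)
    (disj _ (by simp) _ (by simp) h13) (disj _ (by simp) _ (by simp) h23)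
  obtain ⟨p, ⟨hp, hO', hA⟩, -⟩ := key z
  obtain ⟨d, hd, rfl⟩ := List.mem_map.1 hp
  have := (hmem d).2 ⟨hd, (hO d).symm.trans hO'⟩
  simp at this
  rcases this with rfl | rfl | rfl
  · exact Or.inl hA
  · exact Or.inr (Or.inl hA)
  · exact Or.inr (Or.inr hA)

lemma sq_stab : ∀ a b : ZMod 4, (∀ n v, sq (n + a) (v + b) = sq n v) → a = 0 ∧ b = 0 := by
  decide

/-- No solution of the system has a period along the first axis. -/
theorem period_zero (B : Set P3) (h : ∀ l, Sol (sys l) B) (t : P3)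
    (ht : ∀ a, a + t ∈ B ↔ a ∈ B) : t.1 = 0 := by
  obtain ⟨g, r, w, hR⟩ := structure_of_sol h
  obtain ⟨w₀, rfl⟩ := ZMod.intCast_surjective w
  have hs : Sol (slopeDat.map Dat.pc) B := h 6
  let P : ℤ → ℝ := fun j => g (r + 4 * j) (w₀ : ZMod 4)
  let Q : ℤ → ℝ := fun j => g (r + 4 * j + 1) (w₀ + 1 : ℤ)
  let R : ℤ → ℝ := fun j => g (r + 4 * j) (w₀ + 1 : ℤ)
  let S : ℤ → ℝ := fun j => g (r + 4 * j + 1) (w₀ : ZMod 4)
  have hD := dlt_pos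
  have hD1 := dlt_small
  have A1 : ∀ j, ∃ e : ℤ, (e = 0 ∨ e = 1) ∧ Cg (Q (j + 1)) (P j + (3 * e : ℤ) * dlt) ∧
      Cg (Q (j + 1 + 1)) (Q (j + 1) + (4 * e : ℤ) * dlt) := by
    intro j
    rcases band hR hs 0 1 (d₁ := ⟨0, 1, 0, 0, 0, 4⟩) (d₂ := ⟨-5, 0, 0, 4, 1, -3⟩)
      (d₃ := ⟨-9, 0, 1, -3, 1, 0⟩) (by decide) (by simp) (by simp) (by simp) j
      (s₁ := P j) (s₂ := Q (j + 1) + 4 * dlt) (s₃ := Q (j + 1 + 1) + (1 - 3 * dlt))
      (l₁ := 4 * dlt) (l₂ := 1 - 7 * dlt) (l₃ := 3 * dlt)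
      (by simp [P, Dat.pc]) (by simp [Q, Dat.pc]; ring_nf) (by simp [Q, Dat.pc]; ring_nf)
      (by simp [Dat.pc]) (by simp [Dat.pc]; ring) (by simp [Dat.pc])
      (by linarith) (by linarith) (by linarith) (by ring) with ⟨⟨m, hm⟩, ⟨m', hm'⟩⟩ |
      ⟨⟨m, hm⟩, ⟨m', hm'⟩⟩
    · exact ⟨0, Or.inl rfl, ⟨m, by push_cast; linarith⟩, ⟨m', by push_cast; linarith⟩⟩
    · exact ⟨1, Or.inr rfl, ⟨m + m', by push_cast; linarith⟩, ⟨-1 - m', by push_cast; linarith⟩⟩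
  have A2 : ∀ j, ∃ e : ℤ, (e = 0 ∨ e = 1) ∧ Cg (P (j + 1)) (Q j + (e : ℤ) * dlt) ∧
      Cg (P (j + 1 + 1)) (P (j + 1) + (4 * e : ℤ) * dlt) := by
    intro j
    rcases band hR hs 1 2 (d₁ := ⟨0, 1, 0, 0, 0, 4⟩) (d₂ := ⟨-3, 2, 0, 4, 1, -1⟩)
      (d₃ := ⟨-7, 2, 1, -1, 1, 0⟩) (by decide) (by simp) (by simp) (by simp) j
      (s₁ := Q j) (s₂ := P (j + 1) + 4 * dlt) (s₃ := P (j + 1 + 1) + (1 - dlt))
      (l₁ := 4 * dlt) (l₂ := 1 - 5 * dlt) (l₃ := dlt)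
      (by simp [Q, Dat.pc]; ring_nf) (by simp [P, Dat.pc]; ring_nf) (by simp [P, Dat.pc]; ring_nf)
      (by simp [Dat.pc]) (by simp [Dat.pc]; ring) (by simp [Dat.pc])
      (by linarith) (by linarith) (by linarith) (by ring) with ⟨⟨m, hm⟩, ⟨m', hm'⟩⟩ |
      ⟨⟨m, hm⟩, ⟨m', hm'⟩⟩
    · exact ⟨0, Or.inl rfl, ⟨m, by push_cast; linarith⟩, ⟨m', by push_cast; linarith⟩⟩
    · exact ⟨1, Or.inr rfl, ⟨m + m', by push_cast; linarith⟩, ⟨-1 - m', by push_cast; linarith⟩⟩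
  have B1 : ∀ j, ∃ e : ℤ, (e = 0 ∨ e = 1) ∧ Cg (S j) (R j + (3 * e - 2 : ℤ) * dlt) := by
    intro j
    rcases band hR hs 0 2 (d₁ := ⟨0, 1, 0, 0, 0, 4⟩) (d₂ := ⟨-1, 2, 0, 6, 1, -1⟩)
      (d₃ := ⟨-5, 2, 1, -1, 1, 2⟩) (by decide) (by simp) (by simp) (by simp) j
      (s₁ := R j) (s₂ := S j + 6 * dlt) (s₃ := S (j + 1) + (1 - dlt))
      (l₁ := 4 * dlt) (l₂ := 1 - 7 * dlt) (l₃ := 3 * dlt)
      (by simp [R, Dat.pc]; ring_nf) (by simp [S, Dat.pc]) (by simp [S, Dat.pc]; ring_nf)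
      (by simp [Dat.pc]) (by simp [Dat.pc]; ring) (by simp [Dat.pc]; ring)
      (by linarith) (by linarith) (by linarith) (by ring) with ⟨⟨m, hm⟩, ⟨m', hm'⟩⟩ |
      ⟨⟨m, hm⟩, ⟨m', hm'⟩⟩
    · exact ⟨0, Or.inl rfl, ⟨m, by push_cast; linarith⟩⟩
    · exact ⟨1, Or.inr rfl, ⟨m + m', by push_cast; linarith⟩⟩
  have B2 : ∀ j, ∃ e : ℤ, (e = 0 ∨ e = 1) ∧ Cg (R j) (S j + (e - 2 : ℤ) * dlt) ∧
      Cg (R (j + 1)) (R j + (4 * e : ℤ) * dlt) := by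
    intro j
    rcases band hR hs 1 1 (d₁ := ⟨0, 1, 0, 0, 0, 4⟩) (d₂ := ⟨1, 0, 0, 6, 1, 1⟩)
      (d₃ := ⟨-3, 0, 1, 1, 1, 2⟩) (by decide) (by simp) (by simp) (by simp) j
      (s₁ := S j) (s₂ := R j + 6 * dlt) (s₃ := R (j + 1) + (1 + dlt))
      (l₁ := 4 * dlt) (l₂ := 1 - 5 * dlt) (l₃ := dlt)
      (by simp [S, Dat.pc]) (by simp [R, Dat.pc]) (by simp [R, Dat.pc]; ring_nf)
      (by simp [Dat.pc]) (by simp [Dat.pc]; ring) (by simp [Dat.pc]; ring)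
      (by linarith) (by linarith) (by linarith) (by ring) with ⟨⟨m, hm⟩, ⟨m', hm'⟩⟩ |
      ⟨⟨m, hm⟩, ⟨m', hm'⟩⟩
    · exact ⟨0, Or.inl rfl, ⟨m, by push_cast; linarith⟩, ⟨m', by push_cast; linarith⟩⟩
    · exact ⟨1, Or.inr rfl, ⟨m + m', by push_cast; linarith⟩, ⟨-1 - m', by push_cast; linarith⟩⟩
  have Rstep : ∀ j, Cg (R (j + 1)) (R j + ((4 : ℤ) : ℝ) * dlt) := by
    intro j
    obtain ⟨e, he, ⟨m, hm⟩⟩ := B1 j
    obtain ⟨e', he', ⟨m', hm'⟩, h'⟩ := B2 j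
    have := cg_mul (x := R j) (a := 3 * e - 2 + (e' - 2)) (b := 0)
      ⟨-(m + m'), by push_cast at hm hm' ⊢; linarith⟩
    obtain rfl : e' = 1 := by omega
    simpa using h'
  have Riter : ∀ (T : ℕ) j, Cg (R (j + T)) (R j + ((4 * T : ℤ) : ℝ) * dlt) := by
    intro T
    induction T with
    | zero => intro j; simp [Cg.refl]
    | succ T ih =>
      intro j
      have e := (Rstep (j + T)).trans ((ih j).add_right _)
      rw [show j + ((T + 1 : ℕ) : ℤ) = j + T + 1 by push_cast; ring]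
      convert e using 1
      push_cast; ring
  obtain ⟨t₀, s, τ⟩ := t
  have hinv : ∀ n v : ℤ, sq ((n + t₀ : ℤ) - (r : ZMod 4)) ((v + s : ℤ) - (w₀ : ZMod 4)) =
      sq ((n : ZMod 4) - (r : ZMod 4)) ((v : ZMod 4) - (w₀ : ZMod 4)) := by
    intro n v
    rw [Bool.eq_iff_iff]
    constructor
    · intro hh
      have := (hR (n + t₀) (v + s) (g (n + t₀) (v + s : ℤ))).2 ⟨hh, Cg.refl _⟩
      have hb : ((n, v, g (n + t₀) (v + s : ℤ) - τ) : P3) ∈ B := by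
        apply (ht _).1
        simpa using this
      exact ((hR _ _ _).1 hb).1
    · intro hh
      have hb := (ht _).2 ((hR n v _).2 ⟨hh, Cg.refl _⟩)
      exact ((hR _ _ _).1 hb).1
  obtain ⟨hq, hs0⟩ := sq_stab (t₀ : ZMod 4) (s : ZMod 4) fun n v => by
    obtain ⟨n, rfl⟩ := ZMod.intCast_surjective n
    obtain ⟨v, rfl⟩ := ZMod.intCast_surjective v
    have := hinv (n + r) (v + w₀)
    push_cast at this
    convert this using 2 <;> ring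
  obtain ⟨q, rfl⟩ : ∃ q, t₀ = 4 * q := (ZMod.intCast_zmod_eq_zero_iff_dvd t₀ 4).1 hq
  have shiftg : ∀ n v : ℤ, sq ((n : ZMod 4) - (r : ZMod 4)) ((v : ZMod 4) - (w₀ : ZMod 4)) = true →
      Cg (g (n + 4 * q) (v : ZMod 4)) (g n (v : ZMod 4) + τ) := by
    intro n v hh
    have hb := (ht _).2 ((hR n v _).2 ⟨hh, Cg.refl _⟩)
    have := ((hR _ _ _).1 hb).2
    rw [Int.cast_add, hs0, add_zero] at this
    exact this.symm
  have four : (4 : ZMod 4) = 0 := rfl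
  have hPs : ∀ j, Cg (P (j + q)) (P j + τ) := by
    intro j
    have := shiftg (r + 4 * j) w₀ (by simp [sq, four])
    simpa [P, mul_add, add_assoc] using this
  have hRs : ∀ j, Cg (R (j + q)) (R j + τ) := by
    intro j
    have := shiftg (r + 4 * j) (w₀ + 1) (by simp [sq, four])
    simpa [R, mul_add, add_assoc] using this
  have main : ∀ (T : ℕ) (τ' : ℝ), 1 ≤ T → (∀ j, Cg (P (j + T)) (P j + τ')) →
      (∀ j, Cg (R (j + T)) (R j + τ')) → False := by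
    intro T τ' hT hP hR'
    have chain : ∀ (U : ℕ) j, ∃ c : ℤ, c ≤ U ∧ Cg (P (j + 1 + U)) (P (j + 1) + ((4 * c : ℤ) : ℝ) * dlt) ∧
        (c = U → 1 ≤ U → Cg (P (j + 1)) (Q j + ((1 : ℤ) : ℝ) * dlt) ∧
          Cg (P (j + 1 + 1)) (P (j + 1) + ((4 : ℤ) : ℝ) * dlt)) := by
      intro U
      induction U with
      | zero => intro j; exact ⟨0, le_rfl, by simp [Cg.refl], fun _ h => absurd h (by simp)⟩
      | succ U ih =>
        intro j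
        obtain ⟨c, hc, hP', -⟩ := ih (j + 1)
        obtain ⟨e, he, h1, h2⟩ := A2 j
        refine ⟨c + e, by push_cast; omega, ?_, fun hce _ => ?_⟩
        · rw [show j + 1 + ((U + 1 : ℕ) : ℤ) = j + 1 + 1 + U by push_cast; ring]
          convert hP'.trans (h2.add_right _) using 1
          push_cast; ring
        · obtain rfl : e = 1 := by push_cast at hce; omega
          exact ⟨h1, by simpa using h2⟩
    have ones : ∀ j, Cg (P (j + 1)) (Q j + ((1 : ℤ) : ℝ) * dlt) ∧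
        Cg (P (j + 1 + 1)) (P (j + 1) + ((4 : ℤ) : ℝ) * dlt) := by
      intro j
      obtain ⟨c, hc, hP', himp⟩ := chain T j
      refine himp ?_ hT
      obtain ⟨a, ha⟩ := hP (j + 1)
      obtain ⟨b, hb⟩ := hR' (j + 1)
      obtain ⟨c', hc'⟩ := Riter T (j + 1)
      obtain ⟨m, hm⟩ := hP'
      have := cg_mul (x := P (j + 1)) (a := 4 * c) (b := 4 * (T : ℤ))
        ⟨a - b + c' - m, by push_cast at hc' hm ⊢; linarith⟩
      omega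
    obtain ⟨e, he, ⟨a, ha⟩, -⟩ := A1 0
    obtain ⟨⟨b, hb⟩, -⟩ := ones (0 + 1)
    obtain ⟨-, ⟨c, hc⟩⟩ := ones 0
    obtain ⟨-, ⟨c', hc'⟩⟩ := ones (-1)
    simp only [show (-1 : ℤ) + 1 = 0 by rfl] at hc'
    have := cg_mul (x := P 0) (a := 3 * e + 1) (b := 8)
      ⟨c + c' - a - b, by push_cast at ha hb hc hc' ⊢; linarith⟩
    omega
  by_contra hne
  rcases lt_trichotomy q 0 with h0 | h0 | h0
  · refine main q.natAbs (-τ) (by omega) (fun j => ?_) (fun j => ?_)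
    · obtain ⟨m, hm⟩ := hPs (j - q)
      rw [sub_add_cancel] at hm
      rw [show j + (q.natAbs : ℤ) = j - q by omega]
      exact ⟨-m, by push_cast; linarith⟩
    · obtain ⟨m, hm⟩ := hRs (j - q)
      rw [sub_add_cancel] at hm
      rw [show j + (q.natAbs : ℤ) = j - q by omega]
      exact ⟨-m, by push_cast; linarith⟩
  · simp [h0] at hne
  · refine main q.natAbs τ (by omega) (fun j => ?_) (fun j => ?_) <;>
      rw [show (q.natAbs : ℤ) = q by omega]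
    · exact hPs j
    · exact hRs j

end Vale.Agent.P043.R3
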